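import Mathlib.Algebra.BigOperators.Ring.Finset
import Mathlib.Algebra.BigOperators.Field
import Mathlib.Algebra.Order.BigOperators.Ring.Finset
import Mathlib.Analysis.SpecialFunctions.Exp
import Mathlib.Data.Nat.Choose.Sum
import Mathlib.Analysis.SpecialFunctions.Exponential
import Mathlib.Tactic

namespace Vale.Agent.P015

open Finset

variable {ι : Type*} [DecidableEq ι]

noncomputable def EE (x : ι → ℝ) (s : ℕ) (P : Finset ι) : ℝ :=
  ∑ d ∈ P.powerset with d.card ≤ s, (-1 : ℝ) ^ d.card * ∏ i ∈ d, x i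

lemma EE_zero (x : ι → ℝ) (P : Finset ι) : EE x 0 P = 1 := by
  unfold EE
  have : P.powerset.filter (fun d ↦ d.card ≤ 0) = {∅} := by
    ext d
    simp only [mem_filter, mem_powerset, nonpos_iff_eq_zero, card_eq_zero, mem_singleton]
    constructor
    · rintro ⟨_, h⟩; exact h
    · rintro rfl; simp
  rw [this]; simp

omit [DecidableEq ι] in
lemma EE_empty (x : ι → ℝ) (s : ℕ) : EE x s ∅ = 1 := by
  unfold EE
  simp [Finset.filter_singleton]

lemma EE_insert (x : ι → ℝ) (s : ℕ) (P : Finset ι) (a : ι) (ha : a ∉ P) :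
    EE x (s + 1) (insert a P) = EE x (s + 1) P - x a * EE x s P := by
  unfold EE
  rw [Finset.sum_filter, Finset.sum_powerset_insert ha, Finset.sum_filter, Finset.sum_filter,
    sub_eq_add_neg, Finset.mul_sum, ← Finset.sum_neg_distrib]
  congr 1
  refine Finset.sum_congr rfl fun t ht ↦ ?_
  have hat : a ∉ t := fun h ↦ ha (Finset.mem_powerset.1 ht h)
  rw [Finset.card_insert_of_notMem hat, Finset.prod_insert hat]
  by_cases h : t.card ≤ s
  · rw [if_pos (by omega), if_pos h]; ring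
  · rw [if_neg (by omega), if_neg h]; ring

lemma bonferroni (x : ι → ℝ) (P : Finset ι) (h0 : ∀ i ∈ P, 0 ≤ x i) (h1 : ∀ i ∈ P, x i ≤ 1) :
    ∀ s : ℕ, 0 ≤ (-1 : ℝ) ^ s * (EE x s P - ∏ i ∈ P, (1 - x i)) := by
  induction P using Finset.induction_on with
  | empty => intro s; simp [EE_empty]
  | insert a P ha ih =>
    have ih' := ih (fun i hi ↦ h0 i (mem_insert_of_mem hi)) (fun i hi ↦ h1 i (mem_insert_of_mem hi))
    have ha0 := h0 a (mem_insert_self a P)
    have ha1 := h1 a (mem_insert_self a P)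
    intro s
    cases s with
    | zero =>
      rw [EE_zero]
      have : ∏ i ∈ insert a P, (1 - x i) ≤ 1 :=
        Finset.prod_le_one (fun i hi ↦ by linarith [h1 i hi]) (fun i hi ↦ by linarith [h0 i hi])
      simpa using this
    | succ s =>
      rw [EE_insert x s P a ha, Finset.prod_insert ha]
      have e1 := ih' (s + 1)
      have e2 := mul_nonneg ha0 (ih' s)
      have : (-1 : ℝ) ^ (s + 1) * (EE x (s + 1) P - x a * EE x s P -
          (1 - x a) * ∏ i ∈ P, (1 - x i)) =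
          (-1 : ℝ) ^ (s + 1) * (EE x (s + 1) P - ∏ i ∈ P, (1 - x i)) +
          x a * ((-1 : ℝ) ^ s * (EE x s P - ∏ i ∈ P, (1 - x i))) := by
        rw [pow_succ]; ring
      rw [this]
      linarith

lemma bonferroni_even (x : ι → ℝ) (P : Finset ι) (h0 : ∀ i ∈ P, 0 ≤ x i)
    (h1 : ∀ i ∈ P, x i ≤ 1) (r : ℕ) : ∏ i ∈ P, (1 - x i) ≤ EE x (2 * r) P := by
  have := bonferroni x P h0 h1 (2 * r)
  rw [pow_mul] at this
  norm_num at this
  exact this

lemma bonferroni_odd (x : ι → ℝ) (P : Finset ι) (h0 : ∀ i ∈ P, 0 ≤ x i)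
    (h1 : ∀ i ∈ P, x i ≤ 1) (r : ℕ) : EE x (2 * r + 1) P ≤ ∏ i ∈ P, (1 - x i) := by
  have := bonferroni x P h0 h1 (2 * r + 1)
  rw [pow_succ, pow_mul] at this
  norm_num at this
  exact this

noncomputable def ee (x : ι → ℝ) (j : ℕ) (P : Finset ι) : ℝ :=
  ∑ d ∈ P.powersetCard j, ∏ i ∈ d, x i

lemma EE_succ (x : ι → ℝ) (s : ℕ) (P : Finset ι) :
    EE x (s + 1) P = EE x s P + (-1 : ℝ) ^ (s + 1) * ee x (s + 1) P := by
  unfold EE ee
  have : P.powerset.filter (fun d ↦ d.card ≤ s + 1) =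
      P.powerset.filter (fun d ↦ d.card ≤ s) ∪ P.powersetCard (s + 1) := by
    ext d
    simp only [mem_filter, mem_powerset, mem_union, mem_powersetCard]
    constructor
    · rintro ⟨h1, h2⟩
      rcases Nat.lt_or_ge s d.card with h | h
      · right; exact ⟨h1, by omega⟩
      · left; exact ⟨h1, h⟩
    · rintro (⟨h1, h2⟩ | ⟨h1, h2⟩)
      · exact ⟨h1, by omega⟩
      · exact ⟨h1, by omega⟩
  rw [this, Finset.sum_union, Finset.mul_sum]
  · congr 1
    refine Finset.sum_congr rfl fun d hd ↦ ?_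
    rw [(mem_powersetCard.1 hd).2]
  · rw [Finset.disjoint_left]
    intro d hd hd'
    rw [mem_filter] at hd
    rw [mem_powersetCard] at hd'
    omega

lemma add_pow_ge (S x : ℝ) (hS : 0 ≤ S) (hx : 0 ≤ x) (j : ℕ) :
    S ^ (j + 1) + (j + 1) * x * S ^ j ≤ (S + x) ^ (j + 1) := by
  induction j with
  | zero => simp
  | succ j ih =>
    have h1 : (S + x) * (S ^ (j + 1) + (j + 1) * x * S ^ j) ≤ (S + x) * (S + x) ^ (j + 1) := by
      gcongr
    have h2 : (S + x) * (S ^ (j + 1) + (j + 1) * x * S ^ j) =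
      S ^ (j + 1 + 1) + ((j + 1 : ℕ) + 1) * x * S ^ (j + 1) + (j + 1) * x ^ 2 * S ^ j := by
      push_cast; ring
    have h3 : 0 ≤ (j + 1) * x ^ 2 * S ^ j := by positivity
    calc S ^ (j + 1 + 1) + ((j + 1 : ℕ) + 1) * x * S ^ (j + 1)
        ≤ (S + x) * (S ^ (j + 1) + (j + 1) * x * S ^ j) := by rw [h2]; linarith
      _ ≤ (S + x) * (S + x) ^ (j + 1) := h1
      _ = (S + x) ^ (j + 1 + 1) := by ring

lemma ee_le (x : ι → ℝ) (P : Finset ι) (h0 : ∀ i ∈ P, 0 ≤ x i) :
    ∀ j : ℕ, ee x j P * (j.factorial : ℝ) ≤ (∑ i ∈ P, x i) ^ j := by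
  induction P using Finset.induction_on with
  | empty =>
    intro j
    unfold ee
    cases j with
    | zero => simp
    | succ j =>
      rw [Finset.powersetCard_eq_empty.2 (by simp)]
      simp
  | insert a P ha ih =>
    have ih' := ih (fun i hi ↦ h0 i (mem_insert_of_mem hi))
    have ha0 := h0 a (mem_insert_self a P)
    have hS : 0 ≤ ∑ i ∈ P, x i := Finset.sum_nonneg fun i hi ↦ h0 i (mem_insert_of_mem hi)
    intro j
    cases j with
    | zero => unfold ee; simp
    | succ j =>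
      have hrec : ee x (j + 1) (insert a P) = ee x (j + 1) P + x a * ee x j P := by
        unfold ee
        rw [Finset.powersetCard_succ_insert ha, Finset.sum_union, Finset.sum_image, Finset.mul_sum]
        · congr 1
          refine Finset.sum_congr rfl fun t ht ↦ ?_
          have hat : a ∉ t := fun h ↦ ha ((mem_powersetCard.1 ht).1 h)
          rw [Finset.prod_insert hat]
        · intro t ht u hu htu
          have hat : a ∉ t := fun h ↦ ha ((mem_powersetCard.1 ht).1 h)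
          have hau : a ∉ u := fun h ↦ ha ((mem_powersetCard.1 hu).1 h)
          rw [← Finset.erase_insert hat, ← Finset.erase_insert hau]
          rw [htu]
        · rw [Finset.disjoint_left]
          intro d hd hd'
          rw [mem_image] at hd'
          obtain ⟨t, ht, rfl⟩ := hd'
          exact ha ((mem_powersetCard.1 hd).1 (mem_insert_self a t))
      rw [hrec, Finset.sum_insert ha, add_mul]
      have e1 := ih' (j + 1)
      have e2 := ih' j
      have e3 : x a * ee x j P * ((j + 1).factorial : ℝ) ≤ (j + 1) * x a * (∑ i ∈ P, x i) ^ j := by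
        rw [Nat.factorial_succ]
        push_cast
        calc x a * ee x j P * ((j + 1) * (j.factorial : ℝ))
            = (j + 1) * x a * (ee x j P * (j.factorial : ℝ)) := by ring
          _ ≤ (j + 1) * x a * (∑ i ∈ P, x i) ^ j := by gcongr
      have e4 := add_pow_ge (∑ i ∈ P, x i) (x a) hS ha0 j
      rw [add_comm (x a)]
      linarith

lemma EE_even_le (x : ι → ℝ) (P : Finset ι) (h0 : ∀ i ∈ P, 0 ≤ x i)
    (h1 : ∀ i ∈ P, x i ≤ 1) (r : ℕ) :
    EE x (2 * r) P ≤ Real.exp (-∑ i ∈ P, x i) +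
      (∑ i ∈ P, x i) ^ (2 * r + 1) / ((2 * r + 1).factorial : ℝ) := by
  have a1 := bonferroni_odd x P h0 h1 r
  rw [EE_succ, pow_succ, pow_mul] at a1
  norm_num at a1
  have a2 := ee_le x P h0 (2 * r + 1)
  have a3 : ee x (2 * r + 1) P ≤ (∑ i ∈ P, x i) ^ (2 * r + 1) / ((2 * r + 1).factorial : ℝ) := by
    rw [le_div_iff₀ (by positivity)]; exact a2
  have a4 : ∏ i ∈ P, (1 - x i) ≤ Real.exp (-∑ i ∈ P, x i) := by
    rw [← Finset.sum_neg_distrib, Real.exp_sum]
    refine Finset.prod_le_prod (fun i hi ↦ by linarith [h1 i hi]) (fun i hi ↦ ?_)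
    exact Real.one_sub_le_exp_neg (x i)
  linarith

lemma sum_card_le (P : Finset ι) (k s : ℕ) :
    ∑ d ∈ P.powerset with d.card ≤ s, (k : ℝ) ^ d.card ≤ (1 + (k : ℝ) * P.card) ^ s := by
  have h1 : ∑ d ∈ P.powerset with d.card ≤ s, (k : ℝ) ^ d.card =
      ∑ j ∈ range (s + 1), (P.card.choose j : ℝ) * (k : ℝ) ^ j := by
    have h2 : ∀ d ∈ P.powerset.filter (fun d ↦ d.card ≤ s), d.card ∈ range (s + 1) := by
      intro d hd
      rw [mem_filter] at hd
      rw [mem_range]; omega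
    rw [← Finset.sum_fiberwise_of_maps_to h2]
    refine Finset.sum_congr rfl fun j hj ↦ ?_
    rw [mem_range] at hj
    have : (P.powerset.filter (fun d ↦ d.card ≤ s)).filter (fun d ↦ d.card = j) =
        P.powersetCard j := by
      ext d
      simp only [mem_filter, mem_powerset, mem_powersetCard]
      constructor
      · rintro ⟨⟨h1, _⟩, h3⟩; exact ⟨h1, h3⟩
      · rintro ⟨h1, h3⟩; exact ⟨⟨h1, by omega⟩, h3⟩
    rw [this]
    have hc : ∀ d ∈ P.powersetCard j, (k : ℝ) ^ d.card = (k : ℝ) ^ j := fun d hd ↦ by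
      rw [(mem_powersetCard.1 hd).2]
    rw [Finset.sum_congr rfl hc, Finset.sum_const, card_powersetCard, nsmul_eq_mul]
  have h5 : (1 + (k : ℝ) * P.card) ^ s = ∑ m ∈ range (s + 1),
      ((k : ℝ) * P.card) ^ m * 1 ^ (s - m) * (s.choose m : ℝ) := by
    rw [add_comm, add_pow]
  rw [h1, h5]
  refine Finset.sum_le_sum fun j hj ↦ ?_
  rw [mem_range] at hj
  rw [one_pow, mul_one, mul_pow]
  have h3 : (P.card.choose j : ℝ) ≤ (P.card : ℝ) ^ j := by
    exact_mod_cast Nat.choose_le_pow P.card j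
  have h4 : (1 : ℝ) ≤ (s.choose j : ℝ) := by
    have : 0 < s.choose j := Nat.choose_pos (by omega)
    exact_mod_cast this
  calc (P.card.choose j : ℝ) * (k : ℝ) ^ j ≤ (P.card : ℝ) ^ j * (k : ℝ) ^ j := by gcongr
    _ = (k : ℝ) ^ j * (P.card : ℝ) ^ j * 1 := by ring
    _ ≤ (k : ℝ) ^ j * (P.card : ℝ) ^ j * (s.choose j : ℝ) := by gcongr

end Vale.Agent.P015
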