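import Mathlib.Data.ZMod.QuotientRing
import Mathlib.Data.Int.CardIntervalMod
import Mathlib.Tactic
import Vale.Agent.P015.Bonferroni

namespace Vale.Agent.P015

open Finset

lemma count_class (q T : ℕ) (hq : 0 < q) (c : ZMod q) :
    |(((range T).filter (fun t : ℕ ↦ (t : ZMod q) = c)).card : ℝ) - (T : ℝ) / q| ≤ 1 := by
  have : NeZero q := ⟨hq.ne'⟩
  have h1 : (range T).filter (fun t : ℕ ↦ (t : ZMod q) = c) =
      (range T).filter (fun t : ℕ ↦ t ≡ c.val [MOD q]) := by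
    refine Finset.filter_congr fun t _ ↦ ?_
    rw [← ZMod.natCast_eq_natCast_iff, ZMod.natCast_zmod_val]
  rw [h1, ← Nat.count_eq_card_filter_range, Nat.count_modEq_card T hq]
  have h2 : ((T / q : ℕ) : ℝ) ≤ (T : ℝ) / q := Nat.cast_div_le
  have hq' : (0 : ℝ) < q := by exact_mod_cast hq
  have h3 : (T : ℝ) / q < (T / q : ℕ) + 1 := by
    rw [div_lt_iff₀ hq']
    have := Nat.lt_div_mul_add hq (a := T)
    have h4 : (T : ℝ) < ((T / q : ℕ) : ℝ) * q + q := by exact_mod_cast this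
    linarith
  push_cast at h2 h3 ⊢
  rw [abs_le]
  split_ifs <;> constructor <;> simp <;> linarith

lemma count_crt (P : Finset ℕ) (hP : ∀ p ∈ P, p.Prime) (F : ∀ p : ℕ, Finset (ZMod p)) (k : ℕ)
    (hF : ∀ p ∈ P, (F p).card = k) (T : ℕ) :
    |(((range T).filter (fun t : ℕ ↦ ∀ p ∈ P, (t : ZMod p) ∈ F p)).card : ℝ) -
      (T : ℝ) * ∏ p ∈ P, ((k : ℝ) / p)| ≤ (k : ℝ) ^ P.card := by
  classical
  let a : P → ℕ := fun p ↦ (p : ℕ)
  have hcop : Pairwise (Function.onFun Nat.Coprime a) := by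
    intro p q hpq
    exact (Nat.coprime_primes (hP p p.2) (hP q q.2)).2 (fun h ↦ hpq (Subtype.ext h))
  set q := ∏ i, a i with hq
  have hqP : q = ∏ p ∈ P, p := by
    rw [hq]; exact Finset.prod_coe_sort P (fun p ↦ p)
  have hq0 : 0 < q := by
    rw [hqP]; exact Finset.prod_pos fun p hp ↦ (hP p hp).pos
  let e := ZMod.prodEquivPi a hcop
  let S : Finset (∀ i : P, ZMod (a i)) := Fintype.piFinset (fun i : P ↦ F (i : ℕ))
  have hScard : S.card = k ^ P.card := by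
    rw [Fintype.card_piFinset]
    rw [Finset.prod_congr rfl (fun (i : P) _ ↦ hF (i : ℕ) i.2)]
    simp
  have hset : ((range T).filter (fun t : ℕ ↦ ∀ p ∈ P, (t : ZMod p) ∈ F p)).card =
      ∑ g ∈ S, ((range T).filter (fun t : ℕ ↦ (t : ZMod q) = e.symm g)).card := by
    have hmaps : ∀ t ∈ (range T).filter (fun t : ℕ ↦ ∀ p ∈ P, (t : ZMod p) ∈ F p),
        (fun i : P ↦ ((t : ℕ) : ZMod (a i))) ∈ S := by
      intro t ht
      rw [mem_filter] at ht
      rw [Fintype.mem_piFinset]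
      intro i
      exact ht.2 i i.2
    rw [Finset.card_eq_sum_card_fiberwise hmaps]
    refine Finset.sum_congr rfl fun g hg ↦ ?_
    congr 1
    ext t
    simp only [mem_filter, and_assoc]
    constructor
    · rintro ⟨h1, h2, h3⟩
      refine ⟨h1, ?_⟩
      rw [RingEquiv.eq_symm_apply, map_natCast]
      rw [← h3]
      ext i
      simp
    · rintro ⟨h1, h2⟩
      rw [RingEquiv.eq_symm_apply, map_natCast] at h2
      have h3 : (fun i : P ↦ ((t : ℕ) : ZMod (a i))) = g := by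
        rw [← h2]; ext i; simp
      refine ⟨h1, ?_, h3⟩
      intro p hp
      rw [← h3] at hg
      rw [Fintype.mem_piFinset] at hg
      exact hg ⟨p, hp⟩
  have hprod : (T : ℝ) * ∏ p ∈ P, ((k : ℝ) / p) = ∑ g ∈ S, (T : ℝ) / q := by
    rw [Finset.sum_const, hScard, Finset.prod_div_distrib, Finset.prod_const, hqP]
    push_cast
    rw [nsmul_eq_mul]; push_cast; ring
  rw [hset, hprod, Nat.cast_sum, ← Finset.sum_sub_distrib]
  calc |∑ g ∈ S, ((((range T).filter (fun t : ℕ ↦ (t : ZMod q) = e.symm g)).card : ℝ) -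
        (T : ℝ) / q)|
      ≤ ∑ g ∈ S, |((((range T).filter (fun t : ℕ ↦ (t : ZMod q) = e.symm g)).card : ℝ) -
        (T : ℝ) / q)| := Finset.abs_sum_le_sum_abs _ _
    _ ≤ ∑ g ∈ S, (1 : ℝ) := Finset.sum_le_sum fun g _ ↦ count_class q T hq0 _
    _ = (k : ℝ) ^ P.card := by rw [Finset.sum_const, hScard, nsmul_eq_mul]; push_cast; ring

lemma sieve_count (P : Finset ℕ) (hP : ∀ p ∈ P, p.Prime) (F : ∀ p : ℕ, Finset (ZMod p)) (k : ℕ)
    (hF : ∀ p ∈ P, (F p).card = k) (hk : ∀ p ∈ P, k ≤ p) (T r : ℕ) :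
    (((range T).filter (fun t : ℕ ↦ ∀ p ∈ P, (t : ZMod p) ∉ F p)).card : ℝ) ≤
      T * (Real.exp (-∑ p ∈ P, (k : ℝ) / p) +
        (∑ p ∈ P, (k : ℝ) / p) ^ (2 * r + 1) / ((2 * r + 1).factorial : ℝ)) +
      (1 + (k : ℝ) * P.card) ^ (2 * r) := by
  classical
  let x : ℕ → ℕ → ℝ := fun t p ↦ if (t : ZMod p) ∈ F p then 1 else 0
  have h1 : (((range T).filter (fun t : ℕ ↦ ∀ p ∈ P, (t : ZMod p) ∉ F p)).card : ℝ) ≤
      ∑ t ∈ range T, EE (x t) (2 * r) P := by
    rw [Finset.card_filter]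
    push_cast
    refine Finset.sum_le_sum fun t _ ↦ ?_
    have hb := bonferroni_even (x t) P (fun p _ ↦ by simp only [x]; split_ifs <;> norm_num)
      (fun p _ ↦ by simp only [x]; split_ifs <;> norm_num) r
    refine le_trans ?_ hb
    split_ifs with h
    · rw [Finset.prod_eq_one]
      intro p hp
      simp [x, h p hp]
    · exact Finset.prod_nonneg fun p _ ↦ by simp only [x]; split_ifs <;> norm_num
  have h2 : ∑ t ∈ range T, EE (x t) (2 * r) P =
      ∑ d ∈ P.powerset with d.card ≤ 2 * r, (-1 : ℝ) ^ d.card *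
        (((range T).filter (fun t : ℕ ↦ ∀ p ∈ d, (t : ZMod p) ∈ F p)).card : ℝ) := by
    unfold EE
    rw [Finset.sum_comm]
    refine Finset.sum_congr rfl fun d _ ↦ ?_
    rw [← Finset.mul_sum]
    congr 1
    rw [Finset.card_filter]
    push_cast
    refine Finset.sum_congr rfl fun t _ ↦ ?_
    simp only [x]
    rw [Finset.prod_ite_zero]
    simp
  have h3 : ∑ d ∈ P.powerset with d.card ≤ 2 * r, (-1 : ℝ) ^ d.card *
        (((range T).filter (fun t : ℕ ↦ ∀ p ∈ d, (t : ZMod p) ∈ F p)).card : ℝ) ≤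
      ∑ d ∈ P.powerset with d.card ≤ 2 * r, ((-1 : ℝ) ^ d.card *
        ((T : ℝ) * ∏ p ∈ d, ((k : ℝ) / p)) + (k : ℝ) ^ d.card) := by
    refine Finset.sum_le_sum fun d hd ↦ ?_
    rw [mem_filter, mem_powerset] at hd
    have hc := count_crt d (fun p hp ↦ hP p (hd.1 hp)) F k (fun p hp ↦ hF p (hd.1 hp)) T
    rw [abs_le] at hc
    rcases neg_one_pow_eq_or ℝ d.card with h | h <;> rw [h] <;> linarith [hc.1, hc.2]
  have h4 : ∑ d ∈ P.powerset with d.card ≤ 2 * r, ((-1 : ℝ) ^ d.card *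
        ((T : ℝ) * ∏ p ∈ d, ((k : ℝ) / p)) + (k : ℝ) ^ d.card) =
      T * EE (fun p : ℕ ↦ (k : ℝ) / p) (2 * r) P +
      ∑ d ∈ P.powerset with d.card ≤ 2 * r, (k : ℝ) ^ d.card := by
    rw [Finset.sum_add_distrib]
    congr 1
    unfold EE
    rw [Finset.mul_sum]
    refine Finset.sum_congr rfl fun d _ ↦ ?_
    ring
  have h5 : EE (fun p : ℕ ↦ (k : ℝ) / p) (2 * r) P ≤ Real.exp (-∑ p ∈ P, (k : ℝ) / p) +
        (∑ p ∈ P, (k : ℝ) / p) ^ (2 * r + 1) / ((2 * r + 1).factorial : ℝ) := by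
    refine EE_even_le _ P (fun p _ ↦ by positivity) (fun p hp ↦ ?_) r
    have : (0 : ℝ) < p := by exact_mod_cast (hP p hp).pos
    rw [div_le_one this]
    exact_mod_cast hk p hp
  have h6 := sum_card_le P k (2 * r)
  calc (((range T).filter (fun t : ℕ ↦ ∀ p ∈ P, (t : ZMod p) ∉ F p)).card : ℝ)
      ≤ T * EE (fun p : ℕ ↦ (k : ℝ) / p) (2 * r) P +
      ∑ d ∈ P.powerset with d.card ≤ 2 * r, (k : ℝ) ^ d.card := by linarith
    _ ≤ _ := by gcongr

end Vale.Agent.P015
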