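import Mathlib.NumberTheory.Zsqrtd.GaussianInt
import Mathlib.Combinatorics.SimpleGraph.Connectivity.Connected
import Mathlib.Analysis.Complex.Norm
import Mathlib.Analysis.SpecialFunctions.Pow.Real

namespace Vale.Agent.P015

noncomputable def moatGraph (D : ℝ) : SimpleGraph {z : GaussianInt // Irreducible z} where
  Adj z w := z ≠ w ∧ ‖(z.1 : ℂ) - (w.1 : ℂ)‖ ≤ D
  symm := ⟨fun _ _ h ↦ ⟨h.1.symm, by rw [norm_sub_rev]; exact h.2⟩⟩
  loopless := ⟨fun _ h ↦ h.1 rfl⟩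

end Vale.Agent.P015
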