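import Mathlib.NumberTheory.Zsqrtd.GaussianInt
import Mathlib.NumberTheory.Zsqrtd.QuadraticReciprocity
import Mathlib.NumberTheory.LegendreSymbol.Basic
import Mathlib.Tactic
import Vale.Agent.P015.CRTCount

namespace Vale.Agent.P015

open Finset Classical

noncomputable def rt (p : ℕ) : ZMod p :=
  if h : ∃ s : ZMod p, s * s = -1 then h.choose else 0

lemma rt_sq {p : ℕ} (hp : p.Prime) (h4 : p % 4 = 1) : rt p * rt p = -1 := by
  have : Fact p.Prime := ⟨hp⟩
  have h : IsSquare (-1 : ZMod p) := ZMod.exists_sq_eq_neg_one_iff.2 (by omega)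
  have h' : ∃ s : ZMod p, s * s = -1 := by
    obtain ⟨s, hs⟩ := h
    exact ⟨s, hs.symm⟩
  unfold rt
  rw [dif_pos h']
  exact h'.choose_spec

noncomputable def ph (p : ℕ) (z : GaussianInt) : ZMod p := (z.re : ZMod p) + (z.im : ZMod p) * rt p

lemma ph_add (p : ℕ) (z w : GaussianInt) : ph p (z + w) = ph p z + ph p w := by
  unfold ph; simp; ring

lemma ph_mul {p : ℕ} (hp : p.Prime) (h4 : p % 4 = 1) (z w : GaussianInt) :
    ph p (z * w) = ph p z * ph p w := by
  unfold ph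
  simp only [Zsqrtd.re_mul, Zsqrtd.im_mul]
  push_cast
  linear_combination (-(z.im : ZMod p) * w.im) * rt_sq hp h4

lemma ph_natCast (p : ℕ) (n : ℕ) : ph p (n : GaussianInt) = n := by
  unfold ph; simp

lemma ph_one (p : ℕ) : ph p 1 = 1 := by
  unfold ph; simp

lemma ph_norm {p : ℕ} (hp : p.Prime) (h4 : p % 4 = 1) {z : GaussianInt} (h : ph p z = 0) :
    (p : ℤ) ∣ z.norm := by
  rw [← ZMod.intCast_zmod_eq_zero_iff_dvd]
  unfold ph at h
  rw [Zsqrtd.norm_def]
  push_cast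
  linear_combination ((z.re : ZMod p) - z.im * rt p) * h + (z.im : ZMod p) ^ 2 * rt_sq hp h4

lemma ph_irreducible {p : ℕ} (hp : p.Prime) (h4 : p % 4 = 1) {z : GaussianInt}
    (hz : Irreducible z) (h : ph p z = 0) : z.norm ≤ (p : ℤ) ^ 2 := by
  have : Fact p.Prime := ⟨hp⟩
  rcases hz.isCoprime_or_dvd (p : GaussianInt) with hc | hd
  · exfalso
    obtain ⟨a, b, hab⟩ := hc
    have h1 : ph p (a * z + b * (p : GaussianInt)) = 1 := by rw [hab, ph_one]
    rw [ph_add, ph_mul hp h4, ph_mul hp h4, h, ph_natCast] at h1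
    simp at h1
  · have h1 : z.norm ∣ (p : GaussianInt).norm := by
      obtain ⟨c, hc⟩ := hd
      rw [hc, Zsqrtd.norm_mul]
      exact dvd_mul_right _ _
    have h2 : (p : GaussianInt).norm = (p : ℤ) ^ 2 := by
      rw [Zsqrtd.norm_def]; simp; ring
    rw [h2] at h1
    exact Int.le_of_dvd (by have := hp.pos; positivity) h1

lemma norm_nonneg' (z : GaussianInt) : 0 ≤ z.norm := by
  rw [Zsqrtd.norm_def]; nlinarith [mul_self_nonneg z.re, mul_self_nonneg z.im]

lemma norm_pos' {z : GaussianInt} (hz : z ≠ 0) : 0 < z.norm := by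
  rcases (norm_nonneg' z).lt_or_eq with h | h
  · exact h
  · exfalso
    apply hz
    rw [Zsqrtd.norm_def] at h
    have h1 : z.re * z.re = 0 := by nlinarith [mul_self_nonneg z.re, mul_self_nonneg z.im]
    have h2 : z.im * z.im = 0 := by nlinarith [mul_self_nonneg z.re, mul_self_nonneg z.im]
    ext
    · simpa using h1
    · simpa using h2

lemma sieve_gamma (P : Finset ℕ) (hP : ∀ p ∈ P, p.Prime ∧ p % 4 = 1) (γ : Finset GaussianInt)
    (k : ℕ) (hγ : γ.card = k)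
    (hdiff : ∀ p ∈ P, ∀ σ ∈ γ, ∀ τ ∈ γ, σ ≠ τ → (σ - τ).norm < p)
    (v w : GaussianInt) (hv : ∀ p ∈ P, ¬ (p : ℤ) ∣ v.norm) (T r : ℕ) :
    (((range T).filter (fun t : ℕ ↦ ∀ p ∈ P, ∀ σ ∈ γ,
      ph p (w + t * v + σ) ≠ 0)).card : ℝ) ≤
      T * (Real.exp (-∑ p ∈ P, (k : ℝ) / p) +
        (∑ p ∈ P, (k : ℝ) / p) ^ (2 * r + 1) / ((2 * r + 1).factorial : ℝ)) +
      (1 + (k : ℝ) * P.card) ^ (2 * r) := by
  classical
  let F : ∀ p : ℕ, Finset (ZMod p) := fun p ↦ γ.image (fun σ ↦ -(ph p (w + σ)) * (ph p v)⁻¹)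
  have hv' : ∀ p ∈ P, ph p v ≠ 0 := fun p hp h ↦
    hv p hp (ph_norm (hP p hp).1 (hP p hp).2 h)
  have hF : ∀ p ∈ P, (F p).card = k := by
    intro p hp
    have : Fact p.Prime := ⟨(hP p hp).1⟩
    rw [← hγ]
    refine Finset.card_image_of_injOn ?_
    intro σ hσ τ hτ hst
    by_contra hne
    have hst' : -(ph p (w + σ)) * (ph p v)⁻¹ = -(ph p (w + τ)) * (ph p v)⁻¹ := hst
    have h1 : ph p (w + σ) = ph p (w + τ) := by
      have := mul_right_cancel₀ (inv_ne_zero (hv' p hp)) hst'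
      exact neg_injective this
    have h2 : ph p (σ - τ) = 0 := by
      have h3 : w + σ = (w + τ) + (σ - τ) := by ring
      rw [h3, ph_add] at h1
      simpa using h1
    have h4 := ph_norm (hP p hp).1 (hP p hp).2 h2
    have h5 := Int.le_of_dvd (norm_pos' (sub_ne_zero.2 hne)) h4
    have h6 := hdiff p hp σ hσ τ hτ hne
    omega
  have hk : ∀ p ∈ P, k ≤ p := by
    intro p hp
    have : Fact p.Prime := ⟨(hP p hp).1⟩
    rw [← hF p hp]
    calc (F p).card ≤ Fintype.card (ZMod p) := Finset.card_le_univ _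
      _ = p := ZMod.card p
  have hmain := sieve_count P (fun p hp ↦ (hP p hp).1) F k hF hk T r
  refine le_trans ?_ hmain
  refine Nat.cast_le.2 (Finset.card_le_card ?_)
  intro t ht
  rw [mem_filter] at ht ⊢
  refine ⟨ht.1, fun p hp hmem ↦ ?_⟩
  have : Fact p.Prime := ⟨(hP p hp).1⟩
  rw [mem_image] at hmem
  obtain ⟨σ, hσ, hst⟩ := hmem
  apply ht.2 p hp σ hσ
  have h1 : w + (t : GaussianInt) * v + σ = (w + σ) + (t : GaussianInt) * v := by ring
  rw [h1, ph_add, ph_mul (hP p hp).1 (hP p hp).2, ph_natCast, ← hst]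
  have := hv' p hp
  field_simp
  ring

lemma exists_subset_sum (s : Finset ℕ) (f : ℕ → ℝ) (h1 : ∀ i ∈ s, f i ≤ 1) (B : ℝ)
    (hs : B ≤ ∑ i ∈ s, f i) (hB : 0 ≤ B) :
    ∃ t ⊆ s, B ≤ ∑ i ∈ t, f i ∧ ∑ i ∈ t, f i ≤ B + 1 := by
  induction s using Finset.induction_on with
  | empty =>
    refine ⟨∅, by simp, hs, ?_⟩
    simp; linarith
  | insert a s ha ih =>
    rcases le_or_gt (∑ i ∈ insert a s, f i) (B + 1) with h | h
    · exact ⟨insert a s, subset_rfl, hs, h⟩
    · rw [Finset.sum_insert ha] at h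
      have := h1 a (mem_insert_self a s)
      obtain ⟨t, ht, h2, h3⟩ := ih (fun i hi ↦ h1 i (mem_insert_of_mem hi)) (by linarith)
      exact ⟨t, ht.trans (Finset.subset_insert a s), h2, h3⟩

end Vale.Agent.P015
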