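import Mathlib.Combinatorics.SimpleGraph.Walk.Decomp
import Mathlib.Combinatorics.SimpleGraph.Connectivity.Connected
import Mathlib.Tactic
import Vale.Agent.P015.Defs

namespace Vale.Agent.P015

open Finset Classical

lemma exists_walk {V : Type*} (G : SimpleGraph V) (z : V) (k : ℕ)
    (h : (k : ℕ∞) ≤ (G.connectedComponentMk z).supp.encard) :
    ∀ j : ℕ, j + 1 ≤ k → ∃ p : G.Walk z z, p.length = 2 * j ∧ p.support.toFinset.card = j + 1 := by
  intro j
  induction j with
  | zero =>
    intro _
    exact ⟨SimpleGraph.Walk.nil, by simp⟩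
  | succ j ih =>
    intro hj
    obtain ⟨p, hpl, hpc⟩ := ih (by omega)
    have hex : ∃ y ∈ (G.connectedComponentMk z).supp, y ∉ (p.support.toFinset : Set V) := by
      by_contra hcon
      push Not at hcon
      have h1 : (G.connectedComponentMk z).supp ⊆ (p.support.toFinset : Set V) := hcon
      have h2 := Set.encard_le_encard h1
      rw [Set.encard_coe_eq_coe_finsetCard, hpc] at h2
      have h3 : (k : ℕ∞) ≤ ((j + 1 : ℕ) : ℕ∞) := h.trans h2
      have h4 : k ≤ j + 1 := by exact_mod_cast h3
      omega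
    obtain ⟨y, hy1, hy2⟩ := hex
    rw [SimpleGraph.ConnectedComponent.mem_supp_iff, SimpleGraph.ConnectedComponent.eq] at hy1
    obtain ⟨q⟩ := hy1.symm
    obtain ⟨d, _, hd1, hd2⟩ := q.exists_boundary_dart (p.support.toFinset : Set V)
      (by simp) hy2
    have hx : d.fst ∈ p.support := by simpa using hd1
    have hy' : d.snd ∉ p.support := by simpa using hd2
    let p' : G.Walk z z := (p.takeUntil d.fst hx).append
      (SimpleGraph.Walk.cons d.adj (SimpleGraph.Walk.cons d.adj.symm (p.dropUntil d.fst hx)))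
    have hlen : p'.length = 2 * (j + 1) := by
      have h1 : (p.takeUntil d.fst hx).length + (p.dropUntil d.fst hx).length = p.length := by
        rw [← SimpleGraph.Walk.length_append, SimpleGraph.Walk.take_spec]
      simp only [p', SimpleGraph.Walk.length_append, SimpleGraph.Walk.length_cons]
      omega
    have hsup : p'.support.toFinset = insert d.snd p.support.toFinset := by
      ext u
      have h1 : u ∈ p.support ↔
          u ∈ (p.takeUntil d.fst hx).support ∨ u ∈ (p.dropUntil d.fst hx).support := by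
        rw [← SimpleGraph.Walk.mem_support_append_iff, SimpleGraph.Walk.take_spec]
      simp only [p', List.mem_toFinset, SimpleGraph.Walk.mem_support_append_iff,
        SimpleGraph.Walk.support_cons, List.mem_cons, Finset.mem_insert, h1]
      constructor
      · rintro (h | h | h | h)
        · right; left; exact h
        · right; right; rw [h]; exact SimpleGraph.Walk.start_mem_support _
        · left; exact h
        · right; right; exact h
      · rintro (h | h | h)
        · right; right; left; exact h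
        · left; exact h
        · right; right; right; exact h
    refine ⟨p', hlen, ?_⟩
    rw [hsup, Finset.card_insert_of_notMem (by simpa using hy'), hpc]

/-- partial sums -/
noncomputable def pts {m : ℕ} (f : Fin m → GaussianInt) : Finset GaussianInt :=
  (range (m + 1)).image (fun j ↦ ∑ i ∈ range j, if h : i < m then f ⟨i, h⟩ else 0)

noncomputable def box (N : ℕ) : Finset GaussianInt :=
  ((Finset.Icc (-(N : ℤ)) N) ×ˢ (Finset.Icc (-(N : ℤ)) N)).image (fun x ↦ (⟨x.1, x.2⟩ : GaussianInt))

lemma mem_box (N : ℕ) (z : GaussianInt) : z ∈ box N ↔ |z.re| ≤ N ∧ |z.im| ≤ N := by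
  unfold box
  rw [mem_image]
  constructor
  · rintro ⟨x, hx, rfl⟩
    rw [mem_product, Finset.mem_Icc, Finset.mem_Icc] at hx
    exact ⟨abs_le.2 hx.1, abs_le.2 hx.2⟩
  · intro h
    refine ⟨(z.re, z.im), ?_, rfl⟩
    rw [mem_product, Finset.mem_Icc, Finset.mem_Icc]
    exact ⟨abs_le.1 h.1, abs_le.1 h.2⟩

lemma card_box (N : ℕ) : (box N).card ≤ (2 * N + 1) ^ 2 := by
  unfold box
  refine Finset.card_image_le.trans ?_
  rw [card_product, Int.card_Icc]
  have : ((N : ℤ) + 1 - -(N : ℤ)).toNat = 2 * N + 1 := by omega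
  rw [this, sq]

lemma toComplex_norm_sq (z : GaussianInt) : ‖(z : ℂ)‖ ^ 2 = (z.norm : ℝ) := by
  rw [← Complex.normSq_eq_norm_sq, ← GaussianInt.intCast_real_norm]

lemma abs_re_le_norm (z : GaussianInt) : |(z.re : ℝ)| ≤ ‖(z : ℂ)‖ := by
  have := Complex.abs_re_le_norm (z : ℂ)
  simpa using this

lemma abs_im_le_norm (z : GaussianInt) : |(z.im : ℝ)| ≤ ‖(z : ℂ)‖ := by
  have := Complex.abs_im_le_norm (z : ℂ)
  simpa using this

lemma adj_box {D : ℝ} {N : ℕ} (hD : D ≤ N) {z w : {z : GaussianInt // Irreducible z}}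
    (h : (moatGraph D).Adj z w) : w.1 - z.1 ∈ box N := by
  rw [mem_box]
  have h1 : ‖((w.1 - z.1 : GaussianInt) : ℂ)‖ ≤ N := by
    rw [map_sub, norm_sub_rev]
    exact h.2.trans hD
  have h2 := (abs_re_le_norm (w.1 - z.1)).trans h1
  have h3 := (abs_im_le_norm (w.1 - z.1)).trans h1
  constructor
  · exact_mod_cast h2
  · exact_mod_cast h3

theorem exists_fun {D : ℝ} {N : ℕ} (hD : D ≤ N) (z : {z : GaussianInt // Irreducible z}) (k : ℕ)
    (hk : 1 ≤ k) (h : (k : ℕ∞) ≤ ((moatGraph D).connectedComponentMk z).supp.encard) :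
    ∃ f ∈ Fintype.piFinset (fun _ : Fin (2 * (k - 1)) ↦ box N), k ≤ (pts f).card ∧
      ∀ σ ∈ pts f, Irreducible (z.1 + σ) := by
  obtain ⟨p, hpl, hpc⟩ := exists_walk (moatGraph D) z k h (k - 1) (by omega)
  let f : Fin (2 * (k - 1)) → GaussianInt := fun i ↦ (p.getVert (i + 1)).1 - (p.getVert i).1
  have hsum : ∀ j ∈ range (2 * (k - 1) + 1),
      (∑ i ∈ range j, if h : i < 2 * (k - 1) then f ⟨i, h⟩ else 0) = (p.getVert j).1 - z.1 := by
    intro j hj
    rw [mem_range] at hj
    have h1 : (∑ i ∈ range j, if h : i < 2 * (k - 1) then f ⟨i, h⟩ else 0) =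
        ∑ i ∈ range j, ((p.getVert (i + 1)).1 - (p.getVert i).1) := by
      refine Finset.sum_congr rfl fun i hi ↦ ?_
      rw [mem_range] at hi
      rw [dif_pos (by omega)]
    rw [h1, Finset.sum_range_sub (fun i ↦ (p.getVert i).1), SimpleGraph.Walk.getVert_zero]
  have hpts : pts f = p.support.toFinset.image (fun u ↦ u.1 - z.1) := by
    ext σ
    unfold pts
    rw [mem_image, mem_image]
    constructor
    · rintro ⟨j, hj, rfl⟩
      refine ⟨p.getVert j, ?_, (hsum j hj).symm⟩
      rw [List.mem_toFinset]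
      exact SimpleGraph.Walk.getVert_mem_support p j
    · rintro ⟨u, hu, rfl⟩
      rw [List.mem_toFinset, SimpleGraph.Walk.mem_support_iff_exists_getVert] at hu
      obtain ⟨n, hn1, hn2⟩ := hu
      refine ⟨n, by rw [mem_range]; omega, ?_⟩
      rw [hsum n (by rw [mem_range]; omega), hn1]
  refine ⟨f, ?_, ?_, ?_⟩
  · rw [Fintype.mem_piFinset]
    intro i
    exact adj_box hD (p.adj_getVert_succ (by rw [hpl]; exact i.2))
  · rw [hpts, Finset.card_image_of_injective]
    · have e1 : k = k - 1 + 1 := by omega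
      have e2 : ∀ i1 i2 : DecidableEq {z : GaussianInt // Irreducible z},
          (@List.toFinset _ i1 p.support).card = (@List.toFinset _ i2 p.support).card :=
        fun i1 i2 ↦ by rw [Subsingleton.elim i1 i2]
      exact le_of_eq (e1.trans (hpc.symm.trans (e2 _ _)))
    · intro u v huv
      exact Subtype.ext (sub_left_injective huv)
  · intro σ hσ
    rw [hpts, mem_image] at hσ
    obtain ⟨u, _, rfl⟩ := hσ
    have : z.1 + (u.1 - z.1) = u.1 := by ring
    rw [this]
    exact u.2

lemma pts_bound {m N : ℕ} (f : Fin m → GaussianInt)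
    (hf : f ∈ Fintype.piFinset (fun _ : Fin m ↦ box N)) {σ : GaussianInt} (hσ : σ ∈ pts f) :
    |σ.re| ≤ m * N ∧ |σ.im| ≤ m * N := by
  unfold pts at hσ
  rw [mem_image] at hσ
  obtain ⟨j, hj, rfl⟩ := hσ
  rw [mem_range] at hj
  rw [Fintype.mem_piFinset] at hf
  have hre : ∀ s : Finset ℕ, ∀ g : ℕ → GaussianInt, (∑ i ∈ s, g i).re = ∑ i ∈ s, (g i).re := by
    intro s g
    induction s using Finset.induction_on with
    | empty => simp
    | insert a s ha ih => rw [Finset.sum_insert ha, Finset.sum_insert ha, Zsqrtd.re_add, ih]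
  have him : ∀ s : Finset ℕ, ∀ g : ℕ → GaussianInt, (∑ i ∈ s, g i).im = ∑ i ∈ s, (g i).im := by
    intro s g
    induction s using Finset.induction_on with
    | empty => simp
    | insert a s ha ih => rw [Finset.sum_insert ha, Finset.sum_insert ha, Zsqrtd.im_add, ih]
  have hb : ∀ i ∈ range j, |(if h : i < m then f ⟨i, h⟩ else 0 : GaussianInt).re| ≤ (N : ℤ) ∧
      |(if h : i < m then f ⟨i, h⟩ else 0 : GaussianInt).im| ≤ (N : ℤ) := by
    intro i hi
    by_cases h : i < m
    · rw [dif_pos h]
      exact (mem_box N _).1 (hf ⟨i, h⟩)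
    · rw [dif_neg h]
      simp
  constructor
  · rw [hre]
    calc |∑ i ∈ range j, (if h : i < m then f ⟨i, h⟩ else 0 : GaussianInt).re|
        ≤ ∑ i ∈ range j, |(if h : i < m then f ⟨i, h⟩ else 0 : GaussianInt).re| :=
          Finset.abs_sum_le_sum_abs _ _
      _ ≤ ∑ i ∈ range j, (N : ℤ) := Finset.sum_le_sum fun i hi ↦ (hb i hi).1
      _ = j * N := by rw [Finset.sum_const, card_range, nsmul_eq_mul]
      _ ≤ m * N := by
        have : (j : ℤ) ≤ m := by omega
        nlinarith
  · rw [him]
    calc |∑ i ∈ range j, (if h : i < m then f ⟨i, h⟩ else 0 : GaussianInt).im|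
        ≤ ∑ i ∈ range j, |(if h : i < m then f ⟨i, h⟩ else 0 : GaussianInt).im| :=
          Finset.abs_sum_le_sum_abs _ _
      _ ≤ ∑ i ∈ range j, (N : ℤ) := Finset.sum_le_sum fun i hi ↦ (hb i hi).2
      _ = j * N := by rw [Finset.sum_const, card_range, nsmul_eq_mul]
      _ ≤ m * N := by
        have : (j : ℤ) ≤ m := by omega
        nlinarith

end Vale.Agent.P015
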