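import Mathlib.NumberTheory.LSeries.PrimesInAP
import Mathlib.Analysis.SpecialFunctions.Log.Basic

namespace Vale.Agent.P015

open ArithmeticFunction.vonMangoldt ArithmeticFunction Complex LSeries

noncomputable def Fsum (x : ℝ) : ℝ := ∑' n : ℕ, residueClass (1 : ZMod 4) n / (n : ℝ) ^ x

lemma Fsum_bounds : ∃ C : ℝ, 0 ≤ C ∧ ∀ x : ℝ, x ∈ Set.Ioc (1:ℝ) 2 →
    1 / (2 * (x - 1)) - C ≤ Fsum x ∧ Fsum x ≤ 1 / (2 * (x - 1)) + C := by
  have ha : IsUnit (1 : ZMod 4) := isUnit_one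
  have H {x : ℝ} (hx : 1 < x) :
      ∑' n, residueClass (1 : ZMod 4) n / (n : ℝ) ^ x =
        (LFunctionResidueClassAux (1 : ZMod 4) x).re + ((4:ℕ).totient : ℝ)⁻¹ / (x - 1) := by
    refine ofReal_injective ?_
    simp only [ofReal_tsum, ofReal_div, ofReal_cpow (Nat.cast_nonneg _), ofReal_natCast,
      ofReal_add, ofReal_inv, ofReal_sub, ofReal_one]
    simp_rw [← LFunctionResidueClassAux_real ha hx,
      eqOn_LFunctionResidueClassAux ha <| Set.mem_ofPred.mpr (ofReal_re x ▸ hx), sub_add_cancel,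
      LSeries, term]
    refine tsum_congr fun n ↦ ?_
    split_ifs with hn
    · simp only [hn, residueClass_apply_zero, ofReal_zero, zero_div]
    · rfl
  have hcont : ContinuousOn (fun x : ℝ ↦ (LFunctionResidueClassAux (1 : ZMod 4) x).re)
      (Set.Icc 1 2) :=
    continuous_re.continuousOn.comp (t := Set.univ) (continuousOn_LFunctionResidueClassAux _)
      (fun ⦃x⦄ a ↦ trivial) |>.comp continuous_ofReal.continuousOn fun x hx ↦ by
        simpa only [Set.mem_ofPred_eq, ofReal_re] using hx.1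
  obtain ⟨C1, hC1⟩ := bddBelow_def.mp <| IsCompact.bddBelow_image isCompact_Icc hcont
  obtain ⟨C2, hC2⟩ := bddAbove_def.mp <| IsCompact.bddAbove_image isCompact_Icc hcont
  have htot : ((4:ℕ).totient : ℝ) = 2 := by
    have : Nat.totient 4 = 2 := by decide
    rw [this]; norm_num
  refine ⟨max 0 (max (-C1) C2), le_max_left _ _, fun x hx ↦ ?_⟩
  have hx' : x ∈ Set.Icc (1:ℝ) 2 := Set.mem_Icc_of_Ioc hx
  have h1 := hC1 _ (Set.mem_image_of_mem _ hx')
  have h2 := hC2 _ (Set.mem_image_of_mem _ hx')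
  have hF : Fsum x = (LFunctionResidueClassAux (1 : ZMod 4) x).re + 1 / (2 * (x - 1)) := by
    rw [Fsum, H hx.1, htot]
    congr 1
    rw [one_div, mul_inv, div_eq_mul_inv]
  have h3 : -C1 ≤ max 0 (max (-C1) C2) := le_trans (le_max_left _ _) (le_max_right _ _)
  have h4 : C2 ≤ max 0 (max (-C1) C2) := le_trans (le_max_right _ _) (le_max_right _ _)
  rw [hF]
  constructor <;> linarith

lemma Fsum_summable {x : ℝ} (hx : 1 < x) :
    Summable fun n : ℕ ↦ residueClass (1 : ZMod 4) n / (n : ℝ) ^ x :=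
  summable_real_of_abscissaOfAbsConv_lt <|
        (abscissaOfAbsConv_residueClass_le_one _).trans_lt <| mod_cast hx


lemma Fsum_le_aux (Y Z : ℕ) (hY : 1 ≤ Y) (hYZ : Y ≤ Z) {δ η : ℝ} (hδ : 0 < δ) (hη : 0 < η) :
    Fsum (1 + δ) ≤ (Y : ℝ) ^ η * Fsum (1 + η) +
      ∑ n ∈ Finset.Ioc Y Z, residueClass (1 : ZMod 4) n / (n : ℝ) +
      (Z : ℝ) ^ (-(δ / 2)) * Fsum (1 + δ / 2) := by
  have hs1 := Fsum_summable (x := 1 + δ) (by linarith)
  have hs2 := (Fsum_summable (x := 1 + η) (by linarith)).mul_left ((Y : ℝ) ^ η)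
  have hs3 := (Fsum_summable (x := 1 + δ / 2) (by linarith)).mul_left ((Z : ℝ) ^ (-(δ / 2)))
  have hs4 : Summable (fun n : ℕ ↦ if n ∈ Finset.Ioc Y Z then
      residueClass (1 : ZMod 4) n / (n : ℝ) else 0) :=
    summable_of_ne_finset_zero (s := Finset.Ioc Y Z) (fun b hb ↦ by simp only [hb, if_false])
  have hsum4 : ∑' n : ℕ, (if n ∈ Finset.Ioc Y Z then
      residueClass (1 : ZMod 4) n / (n : ℝ) else 0) =
      ∑ n ∈ Finset.Ioc Y Z, residueClass (1 : ZMod 4) n / (n : ℝ) := by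
    rw [tsum_eq_sum (s := Finset.Ioc Y Z) (fun b hb ↦ by simp only [hb, if_false])]
    exact Finset.sum_congr rfl (fun n hn ↦ by simp only [hn, if_true])
  unfold Fsum
  rw [← tsum_mul_left, ← tsum_mul_left, ← hsum4, ← hs2.tsum_add hs4,
    ← (hs2.add hs4).tsum_add hs3]
  refine hs1.tsum_le_tsum (fun n ↦ ?_) ((hs2.add hs4).add hs3)
  have hf := residueClass_nonneg (1 : ZMod 4) n
  rcases Nat.eq_zero_or_pos n with rfl | hn
  · simp
  have hn' : (1 : ℝ) ≤ n := by exact_mod_cast hn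
  have hn0 : (0 : ℝ) < n := by linarith
  have key1 : residueClass (1 : ZMod 4) n / (n : ℝ) ^ (1 + δ) ≤
      residueClass (1 : ZMod 4) n / (n : ℝ) := by
    refine div_le_div_of_nonneg_left hf hn0 ?_
    conv_lhs => rw [← Real.rpow_one (n : ℝ)]
    exact Real.rpow_le_rpow_of_exponent_le hn' (by linarith)
  have nn2 : 0 ≤ (Y : ℝ) ^ η * (residueClass (1 : ZMod 4) n / (n : ℝ) ^ (1 + η)) := by positivity
  have nn3 : 0 ≤ (Z : ℝ) ^ (-(δ / 2)) *
      (residueClass (1 : ZMod 4) n / (n : ℝ) ^ (1 + δ / 2)) := by positivity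
  rcases le_or_gt n Y with hnY | hnY
  · have : n ∉ Finset.Ioc Y Z := by simp [Finset.mem_Ioc, hnY]
    simp only [this, if_false]
    have key2 : residueClass (1 : ZMod 4) n / (n : ℝ) ≤
        (Y : ℝ) ^ η * (residueClass (1 : ZMod 4) n / (n : ℝ) ^ (1 + η)) := by
      rw [Real.rpow_add hn0, Real.rpow_one]
      have h1 : (n : ℝ) ^ η ≤ (Y : ℝ) ^ η :=
        Real.rpow_le_rpow hn0.le (by exact_mod_cast hnY) hη.le
      have h2 : 0 < (n : ℝ) ^ η := Real.rpow_pos_of_pos hn0 _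
      calc residueClass (1 : ZMod 4) n / (n : ℝ)
          = (n : ℝ) ^ η * (residueClass (1 : ZMod 4) n / (n * (n : ℝ) ^ η)) := by
            field_simp
        _ ≤ (Y : ℝ) ^ η * (residueClass (1 : ZMod 4) n / (n * (n : ℝ) ^ η)) := by
            gcongr
    linarith
  rcases le_or_gt n Z with hnZ | hnZ
  · have : n ∈ Finset.Ioc Y Z := by simp [Finset.mem_Ioc, hnY, hnZ]
    simp only [this, if_true]
    linarith
  · have : n ∉ Finset.Ioc Y Z := by simp [Finset.mem_Ioc, hnZ]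
    simp only [this, if_false]
    have key3 : residueClass (1 : ZMod 4) n / (n : ℝ) ^ (1 + δ) ≤
        (Z : ℝ) ^ (-(δ / 2)) * (residueClass (1 : ZMod 4) n / (n : ℝ) ^ (1 + δ / 2)) := by
      have e1 : (n : ℝ) ^ (1 + δ) = (n : ℝ) ^ (1 + δ / 2) * (n : ℝ) ^ (δ / 2) := by
        rw [← Real.rpow_add hn0]; ring_nf
      have hZ0 : (0 : ℝ) < Z := by
        have : 1 ≤ Z := le_trans hY hYZ
        exact_mod_cast this
      have h1 : (Z : ℝ) ^ (δ / 2) ≤ (n : ℝ) ^ (δ / 2) :=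
        Real.rpow_le_rpow hZ0.le (by exact_mod_cast hnZ.le) (by linarith)
      have h2 : 0 < (n : ℝ) ^ (1 + δ / 2) := Real.rpow_pos_of_pos hn0 _
      have h3 : 0 < (Z : ℝ) ^ (δ / 2) := Real.rpow_pos_of_pos hZ0 _
      rw [e1, Real.rpow_neg hZ0.le, ← div_div]
      rw [div_eq_mul_inv _ ((n : ℝ) ^ (δ / 2)), mul_comm]
      gcongr
    linarith

lemma nonprime_bound : ∃ C : ℝ, 0 ≤ C ∧ ∀ s : Finset ℕ,
    ∑ n ∈ s, (if n.Prime then 0 else residueClass (1 : ZMod 4) n) / (n : ℝ) ≤ C := by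
  refine ⟨∑' n : ℕ, (if n.Prime then 0 else residueClass (1 : ZMod 4) n) / (n : ℝ), ?_, ?_⟩
  · refine tsum_nonneg fun n ↦ ?_
    have := residueClass_nonneg (1 : ZMod 4) n
    split_ifs <;> positivity
  · intro s
    refine (summable_residueClass_non_primes_div (1 : ZMod 4)).sum_le_tsum s (fun n _ ↦ ?_)
    have := residueClass_nonneg (1 : ZMod 4) n
    split_ifs <;> positivity

lemma one_step : ∃ Y₁ : ℕ, 2 ≤ Y₁ ∧ ∀ Y : ℕ, Y₁ ≤ Y →
    (1 / 80 : ℝ) ≤ ∑ p ∈ (Finset.Ioc Y (Y ^ 80)).filter (fun p ↦ p.Prime ∧ p % 4 = 1),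
      (1 : ℝ) / p := by
  obtain ⟨C, hC0, hC⟩ := Fsum_bounds
  obtain ⟨C2, hC20, hC2⟩ := nonprime_bound
  obtain ⟨Y₁, hY₁⟩ := exists_nat_ge (Real.exp (4 * C + C2 + 3))
  refine ⟨max 2 Y₁, le_max_left _ _, fun Y hY ↦ ?_⟩
  have hY2 : 2 ≤ Y := le_trans (le_max_left _ _) hY
  have hY1 : (Real.exp (4 * C + C2 + 3)) ≤ Y :=
    hY₁.trans (by exact_mod_cast le_trans (le_max_right _ _) hY)
  have hYpos : (0 : ℝ) < Y := by positivity
  set ℓ := Real.log Y with hℓ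
  have hℓ3 : 4 * C + C2 + 3 ≤ ℓ := by
    rw [hℓ]; exact (Real.le_log_iff_exp_le hYpos).2 hY1
  have hℓpos : 0 < ℓ := by linarith
  have hYZ : Y ≤ Y ^ 80 := Nat.le_self_pow (by norm_num) Y
  have hmain := Fsum_le_aux Y (Y ^ 80) (by omega) hYZ (δ := 1 / (8 * ℓ)) (η := 1 / ℓ)
    (by positivity) (by positivity)
  have hδ1 : 1 / (8 * ℓ) ≤ 1 := by
    rw [div_le_one (by positivity)]; linarith
  have hη1 : 1 / ℓ ≤ 1 := by
    rw [div_le_one (by positivity)]; linarith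
  have b1 := (hC (1 + 1 / (8 * ℓ)) ⟨by linarith [show 0 < 1 / (8 * ℓ) by positivity], by linarith⟩).1
  have b2 := (hC (1 + 1 / ℓ) ⟨by linarith [show 0 < 1 / ℓ by positivity], by linarith⟩).2
  have b3 := (hC (1 + 1 / (8 * ℓ) / 2)
    ⟨by linarith [show 0 < 1 / (8 * ℓ) / 2 by positivity], by linarith⟩).2
  have e1 : 1 / (2 * (1 + 1 / (8 * ℓ) - 1)) = 4 * ℓ := by field_simp; norm_num
  have e2 : 1 / (2 * (1 + 1 / ℓ - 1)) = ℓ / 2 := by field_simp; norm_num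
  have e3 : 1 / (2 * (1 + 1 / (8 * ℓ) / 2 - 1)) = 8 * ℓ := by field_simp; norm_num
  rw [e1] at b1; rw [e2] at b2; rw [e3] at b3
  have hYη : (Y : ℝ) ^ (1 / ℓ) = Real.exp 1 := by
    rw [Real.rpow_def_of_pos hYpos, ← hℓ]; congr 1; field_simp
  have hZδ : ((Y ^ 80 : ℕ) : ℝ) ^ (-(1 / (8 * ℓ) / 2)) = Real.exp (-5) := by
    rw [Real.rpow_def_of_pos (by positivity)]
    push_cast
    rw [Real.log_pow, ← hℓ]; congr 1; field_simp; norm_num
  rw [hYη, hZδ] at hmain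
  have he1 : Real.exp 1 ≤ 2.72 := by linarith [Real.exp_one_lt_d9]
  have he5 : Real.exp (-5) ≤ 1 / 32 := by
    rw [Real.exp_neg]
    have : (32 : ℝ) ≤ Real.exp 5 := by
      have h5 : Real.exp 5 = (Real.exp 1) ^ 5 := by rw [← Real.exp_nat_mul]; norm_num
      rw [h5]
      have : (2 : ℝ) ≤ Real.exp 1 := by linarith [Real.exp_one_gt_d9]
      calc (32 : ℝ) = 2 ^ 5 := by norm_num
        _ ≤ (Real.exp 1) ^ 5 := by gcongr
    rw [one_div]
    exact inv_anti₀ (by norm_num) this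
  have hb2' : Real.exp 1 * Fsum (1 + 1 / ℓ) ≤ 2.72 * (ℓ / 2 + C) := by
    have : (0 : ℝ) ≤ ℓ / 2 + C := by positivity
    calc Real.exp 1 * Fsum (1 + 1 / ℓ) ≤ Real.exp 1 * (ℓ / 2 + C) := by gcongr
      _ ≤ 2.72 * (ℓ / 2 + C) := by gcongr
  have hb3' : Real.exp (-5) * Fsum (1 + 1 / (8 * ℓ) / 2) ≤ 1 / 32 * (8 * ℓ + C) := by
    have : (0 : ℝ) ≤ 8 * ℓ + C := by positivity
    calc Real.exp (-5) * Fsum (1 + 1 / (8 * ℓ) / 2) ≤ Real.exp (-5) * (8 * ℓ + C) := by gcongr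
      _ ≤ 1 / 32 * (8 * ℓ + C) := by gcongr
  have hS : 2 * ℓ - 4 * C ≤ ∑ n ∈ Finset.Ioc Y (Y ^ 80),
      residueClass (1 : ZMod 4) n / (n : ℝ) := by
    nlinarith
  have hsplit : ∑ n ∈ Finset.Ioc Y (Y ^ 80), residueClass (1 : ZMod 4) n / (n : ℝ) =
      ∑ n ∈ Finset.Ioc Y (Y ^ 80), (if n.Prime then 0 else residueClass (1 : ZMod 4) n) / (n : ℝ)
      + ∑ n ∈ Finset.Ioc Y (Y ^ 80),
        (if n.Prime then residueClass (1 : ZMod 4) n else 0) / (n : ℝ) := by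
    rw [← Finset.sum_add_distrib]
    refine Finset.sum_congr rfl fun n _ ↦ ?_
    split_ifs <;> simp
  have hP : ∑ n ∈ Finset.Ioc Y (Y ^ 80),
        (if n.Prime then residueClass (1 : ZMod 4) n else 0) / (n : ℝ) ≤
      80 * ℓ * ∑ p ∈ (Finset.Ioc Y (Y ^ 80)).filter (fun p ↦ p.Prime ∧ p % 4 = 1),
      (1 : ℝ) / p := by
    rw [Finset.mul_sum, Finset.sum_filter]
    refine Finset.sum_le_sum fun n hn ↦ ?_
    rw [Finset.mem_Ioc] at hn
    have hn0 : (0 : ℝ) < n := by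
      have : 0 < n := by omega
      exact_mod_cast this
    by_cases hnp : n.Prime
    · by_cases hn4 : n % 4 = 1
      · simp only [hnp, hn4, and_self, if_true]
        have : residueClass (1 : ZMod 4) n ≤ 80 * ℓ := by
          refine (residueClass_le _ n).trans ?_
          rw [ArithmeticFunction.vonMangoldt_apply_prime hnp]
          calc Real.log n ≤ Real.log ((Y ^ 80 : ℕ) : ℝ) :=
                Real.log_le_log hn0 (by exact_mod_cast hn.2)
            _ = 80 * ℓ := by push_cast; rw [Real.log_pow]; norm_num [hℓ]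
        rw [mul_one_div]
        gcongr
      · have : (n : ZMod 4) ≠ 1 := by
          intro h
          apply hn4
          have h2 : ((n : ℕ) : ZMod 4) = ((1 : ℕ) : ZMod 4) := by simpa using h
          have h3 := (ZMod.natCast_eq_natCast_iff' n 1 4).1 h2
          simpa using h3
        simp [hnp, hn4, this]
    · simp [hnp]
  have hfin : ℓ ≤ 80 * ℓ * ∑ p ∈ (Finset.Ioc Y (Y ^ 80)).filter
      (fun p ↦ p.Prime ∧ p % 4 = 1), (1 : ℝ) / p := by
    have := hC2 (Finset.Ioc Y (Y ^ 80))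
    linarith
  have : ℓ * 1 ≤ ℓ * (80 * ∑ p ∈ (Finset.Ioc Y (Y ^ 80)).filter
      (fun p ↦ p.Prime ∧ p % 4 = 1), (1 : ℝ) / p) := by linarith
  have := le_of_mul_le_mul_left this hℓpos
  linarith

theorem prime_sum (m : ℕ) : ∃ Y₁ : ℕ, 2 ≤ Y₁ ∧ ∀ Y : ℕ, Y₁ ≤ Y →
    (m : ℝ) / 80 ≤ ∑ p ∈ (Finset.Ioc Y (Y ^ (80 ^ m))).filter (fun p ↦ p.Prime ∧ p % 4 = 1),
      (1 : ℝ) / p := by
  obtain ⟨Y₁, hY₁2, hY₁⟩ := one_step
  refine ⟨Y₁, hY₁2, fun Y hY ↦ ?_⟩
  induction m with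
  | zero => simp
  | succ m ih =>
    have hY2 : 2 ≤ Y := le_trans hY₁2 hY
    have h1 : Y ≤ Y ^ (80 ^ m) := Nat.le_self_pow (by positivity) Y
    have h2 : Y ^ (80 ^ m) ≤ Y ^ (80 ^ (m + 1)) :=
      Nat.pow_le_pow_right (by omega) (Nat.pow_le_pow_right (by norm_num) (by omega))
    have h3 := hY₁ (Y ^ (80 ^ m)) (hY.trans h1)
    rw [← pow_mul, ← pow_succ] at h3
    rw [← Finset.Ioc_union_Ioc_eq_Ioc h1 h2, Finset.filter_union, Finset.sum_union]
    · push_cast; linarith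
    · refine Finset.disjoint_filter_filter ?_
      rw [Finset.disjoint_left]
      intro a ha hb
      rw [Finset.mem_Ioc] at ha hb
      omega

end Vale.Agent.P015
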