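import Mathlib.Tactic
import Vale.Agent.P015.PrimeSum
import Vale.Agent.P015.Gauss
import Vale.Agent.P015.Graph

namespace Vale.Agent.P015

open Finset Classical

lemma select_primes (B : ℕ) : ∃ A k1 : ℕ, 1 ≤ A ∧ 1 ≤ k1 ∧ ∀ k ≥ k1, ∀ v : GaussianInt, v ≠ 0 →
    v.norm ≤ 2 ^ (k ^ 2) → ∃ P : Finset ℕ, (∀ p ∈ P, p.Prime ∧ p % 4 = 1) ∧
      (∀ p ∈ P, k ^ 3 < p ∧ p ≤ (k ^ 3) ^ A) ∧ (∀ p ∈ P, ¬ (p : ℤ) ∣ v.norm) ∧
      (B : ℝ) ≤ ∑ p ∈ P, (1 : ℝ) / p ∧ ∑ p ∈ P, (1 : ℝ) / p ≤ B + 1 := by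
  obtain ⟨Y₁, hY₁2, hY₁⟩ := prime_sum (80 * (B + 1))
  refine ⟨80 ^ (80 * (B + 1)), max 2 Y₁, Nat.one_le_pow _ _ (by norm_num), by omega, ?_⟩
  intro k hk v hv0 hv
  have hk2 : 2 ≤ k := le_trans (le_max_left _ _) hk
  have hkY : Y₁ ≤ k := le_trans (le_max_right _ _) hk
  have hk3 : k ≤ k ^ 3 := Nat.le_self_pow (by norm_num) k
  have h1 := hY₁ (k ^ 3) (hkY.trans hk3)
  set P0 := (Finset.Ioc (k ^ 3) ((k ^ 3) ^ (80 ^ (80 * (B + 1))))).filter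
    (fun p ↦ p.Prime ∧ p % 4 = 1) with hP0
  have h1' : (B : ℝ) + 1 ≤ ∑ p ∈ P0, (1 : ℝ) / p := by
    refine le_trans (le_of_eq ?_) h1
    push_cast; ring
  have hP0mem : ∀ p ∈ P0, (k ^ 3 < p ∧ p ≤ (k ^ 3) ^ (80 ^ (80 * (B + 1)))) ∧
      (p.Prime ∧ p % 4 = 1) := by
    intro p hp
    rw [hP0, mem_filter, Finset.mem_Ioc] at hp
    exact hp
  set s' := P0.filter (fun p : ℕ ↦ (p : ℤ) ∣ v.norm) with hs'
  set P1 := P0.filter (fun p : ℕ ↦ ¬ (p : ℤ) ∣ v.norm) with hP1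
  have hsplit : ∑ p ∈ s', (1 : ℝ) / p + ∑ p ∈ P1, (1 : ℝ) / p = ∑ p ∈ P0, (1 : ℝ) / p :=
    Finset.sum_filter_add_sum_filter_not _ _ _
  have hvn := norm_pos' hv0
  have hcard : s'.card ≤ k ^ 2 := by
    have hdvd : ∏ p ∈ s', p ∣ v.norm.natAbs := by
      refine Finset.prod_primes_dvd _ (fun p hp ↦ ?_) (fun p hp ↦ ?_)
      · rw [hs', mem_filter] at hp
        exact (hP0mem p hp.1).2.1.prime
      · rw [hs', mem_filter] at hp
        exact Int.natCast_dvd.1 hp.2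
    have h2 : 2 ^ s'.card ≤ ∏ p ∈ s', p := by
      rw [← Finset.prod_const]
      refine Finset.prod_le_prod (fun _ _ ↦ by norm_num) (fun p hp ↦ ?_)
      rw [hs', mem_filter] at hp
      exact (hP0mem p hp.1).2.1.two_le
    have h3 : ∏ p ∈ s', p ≤ v.norm.natAbs := Nat.le_of_dvd (by omega) hdvd
    have h4 : v.norm.natAbs ≤ 2 ^ (k ^ 2) := by
      zify
      rw [abs_of_pos hvn]
      exact hv
    exact (Nat.pow_le_pow_iff_right (by norm_num)).1 (h2.trans (h3.trans h4))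
  have hs'sum : ∑ p ∈ s', (1 : ℝ) / p ≤ 1 := by
    have hkr : (2 : ℝ) ≤ k := by exact_mod_cast hk2
    calc ∑ p ∈ s', (1 : ℝ) / p ≤ ∑ p ∈ s', (1 : ℝ) / (k : ℝ) ^ 3 := by
          refine Finset.sum_le_sum fun p hp ↦ ?_
          rw [hs', mem_filter] at hp
          have := (hP0mem p hp.1).1.1
          have h5 : (k : ℝ) ^ 3 ≤ p := by exact_mod_cast this.le
          exact one_div_le_one_div_of_le (by positivity) h5
      _ = s'.card / (k : ℝ) ^ 3 := by rw [Finset.sum_const, nsmul_eq_mul]; ring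
      _ ≤ (k : ℝ) ^ 2 / (k : ℝ) ^ 3 := by
          gcongr
          exact_mod_cast hcard
      _ = 1 / k := by field_simp
      _ ≤ 1 := by rw [div_le_one (by linarith)]; linarith
  have hP1sum : (B : ℝ) ≤ ∑ p ∈ P1, (1 : ℝ) / p := by linarith
  obtain ⟨P, hPsub, hPl, hPu⟩ := exists_subset_sum P1 (fun p ↦ (1 : ℝ) / p) (fun p hp ↦ by
    rw [hP1, mem_filter] at hp
    have := (hP0mem p hp.1).2.1.one_le
    have h5 : (1 : ℝ) ≤ p := by exact_mod_cast this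
    rw [div_le_one (by linarith)]; exact h5) B hP1sum (by positivity)
  refine ⟨P, fun p hp ↦ ?_, fun p hp ↦ ?_, fun p hp ↦ ?_, hPl, hPu⟩
  · have := hPsub hp
    rw [hP1, mem_filter] at this
    exact (hP0mem p this.1).2
  · have := hPsub hp
    rw [hP1, mem_filter] at this
    exact (hP0mem p this.1).1
  · have := hPsub hp
    rw [hP1, mem_filter] at this
    exact this.2

lemma tail_bound (S : ℝ) (hS : 0 ≤ S) (n : ℕ) (hn : 8 * S ≤ n) :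
    S ^ n / (n.factorial : ℝ) ≤ Real.exp (-n) := by
  have h1 := Real.pow_div_factorial_le_exp (8 * S) (by positivity) n
  have h2 : S ^ n / (n.factorial : ℝ) = ((8 * S) ^ n / (n.factorial : ℝ)) * (1 / 8) ^ n := by
    rw [mul_pow, div_pow]; field_simp; ring
  have h3 : Real.exp (8 * S) ≤ Real.exp n := Real.exp_le_exp.2 hn
  have h4 : ((1 : ℝ) / 8) ^ n ≤ Real.exp (-(2 * n)) := by
    have : Real.exp (-(2 * n)) = (Real.exp (-2)) ^ n := by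
      rw [← Real.exp_nat_mul]; ring_nf
    rw [this]
    gcongr
    rw [Real.exp_neg, one_div]
    refine inv_anti₀ (Real.exp_pos _) ?_
    have h5 : Real.exp 2 = (Real.exp 1) ^ 2 := by rw [← Real.exp_nat_mul]; norm_num
    rw [h5]
    have := Real.exp_one_lt_d9
    have h6 := Real.exp_pos 1
    nlinarith
  rw [h2]
  calc ((8 * S) ^ n / (n.factorial : ℝ)) * (1 / 8) ^ n
      ≤ Real.exp n * Real.exp (-(2 * n)) := by
        gcongr
        exact h1.trans h3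
    _ = Real.exp (-n) := by rw [← Real.exp_add]; ring_nf

lemma num1 (k B r : ℕ) (S : ℝ) (hSu : S ≤ k * (B + 1)) (hr : r = 4 * k * (B + 1)) :
    8 * S ≤ ((2 * r + 1 : ℕ) : ℝ) := by
  rw [hr]; push_cast; linarith

lemma num2 (k B r : ℕ) (hr : r = 4 * k * (B + 1)) :
    Real.exp (-((2 * r + 1 : ℕ) : ℝ)) ≤ Real.exp (-(k * B)) := by
  refine Real.exp_le_exp.2 ?_
  rw [hr]; push_cast
  have h1 : (0 : ℝ) ≤ (k : ℝ) * B := by positivity
  have h2 : (0 : ℝ) ≤ (k : ℝ) := by positivity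
  linarith

lemma norm_le_of_abs {z : GaussianInt} {M : ℤ} (h1 : |z.re| ≤ M) (h2 : |z.im| ≤ M) :
    z.norm ≤ 2 * M ^ 2 := by
  have hM : 0 ≤ M := (abs_nonneg _).trans h1
  rw [Zsqrtd.norm_def]
  have e1 : z.re * z.re ≤ M * M := by
    rw [← abs_mul_abs_self]
    exact mul_le_mul h1 h1 (abs_nonneg _) hM
  have e2 : z.im * z.im ≤ M * M := by
    rw [← abs_mul_abs_self]
    exact mul_le_mul h2 h2 (abs_nonneg _) hM
  linarith

lemma abs_le_of_norm {z : GaussianInt} {M : ℤ} (hM : 0 ≤ M) (h : z.norm ≤ M ^ 2) :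
    |z.re| ≤ M ∧ |z.im| ≤ M := by
  rw [Zsqrtd.norm_def] at h
  have a1 := mul_self_nonneg z.im
  have a2 := mul_self_nonneg z.re
  constructor
  · refine abs_le_of_sq_le_sq ?_ hM
    linarith
  · refine abs_le_of_sq_le_sq ?_ hM
    linarith

lemma mN_le (k N : ℕ) : ((2 * (k - 1) : ℕ) : ℤ) * N ≤ 2 * k * N := by
  have h1 : ((2 * (k - 1) : ℕ) : ℤ) ≤ 2 * k := by omega
  exact mul_le_mul_of_nonneg_right h1 (by positivity)

lemma diff_norm_lt (k N : ℕ) (hkN : 32 * N ^ 2 < k) (σ τ : GaussianInt)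
    (h1 : |σ.re| ≤ (2 * (k - 1) : ℕ) * N ∧ |σ.im| ≤ (2 * (k - 1) : ℕ) * N)
    (h2 : |τ.re| ≤ (2 * (k - 1) : ℕ) * N ∧ |τ.im| ≤ (2 * (k - 1) : ℕ) * N) :
    (σ - τ).norm ≤ (k : ℤ) ^ 3 := by
  have hm := mN_le k N
  have h4 : |(σ - τ).re| ≤ 4 * k * N := by
    rw [Zsqrtd.re_sub]
    refine (abs_sub _ _).trans ?_
    linarith [h1.1, h2.1]
  have h5 : |(σ - τ).im| ≤ 4 * k * N := by
    rw [Zsqrtd.im_sub]
    refine (abs_sub _ _).trans ?_
    linarith [h1.2, h2.2]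
  have h6 := norm_le_of_abs h4 h5
  have h7 : (32 * k ^ 2 * N ^ 2 : ℤ) ≤ (k : ℤ) ^ 3 := by
    have : (32 * N ^ 2 : ℤ) ≤ k := by exact_mod_cast hkN.le
    calc (32 * k ^ 2 * N ^ 2 : ℤ) = (k : ℤ) ^ 2 * (32 * N ^ 2) := by ring
      _ ≤ (k : ℤ) ^ 2 * k := by gcongr
      _ = (k : ℤ) ^ 3 := by ring
  calc (σ - τ).norm ≤ 2 * (4 * k * N) ^ 2 := h6
    _ = 32 * k ^ 2 * N ^ 2 := by ring
    _ ≤ (k : ℤ) ^ 3 := h7

lemma one_gamma (N k B Q T : ℕ) (hk3 : 3 ≤ k) (hkN : 32 * N ^ 2 < k) (P : Finset ℕ)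
    (hP1 : ∀ p ∈ P, p.Prime ∧ p % 4 = 1) (hP2 : ∀ p ∈ P, k ^ 3 < p ∧ p ≤ Q)
    (v w : GaussianInt) (hP3 : ∀ p ∈ P, ¬ (p : ℤ) ∣ v.norm)
    (hPl : (B : ℝ) ≤ ∑ p ∈ P, (1 : ℝ) / p) (hPu : ∑ p ∈ P, (1 : ℝ) / p ≤ B + 1)
    (γ : Finset GaussianInt) (hγ : γ.card = k)
    (hγb : ∀ σ ∈ γ, |σ.re| ≤ (2 * (k - 1) : ℕ) * N ∧ |σ.im| ≤ (2 * (k - 1) : ℕ) * N) :
    (((range T).filter (fun t : ℕ ↦ ∀ p ∈ P, ∀ σ ∈ γ,
        ph p (w + t * v + σ) ≠ 0)).card : ℝ) ≤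
      2 * T * Real.exp (-(k * B)) + (1 + (k : ℝ) * Q) ^ (2 * (4 * k * (B + 1))) := by
  obtain ⟨r, hr⟩ : ∃ r : ℕ, r = 4 * k * (B + 1) := ⟨_, rfl⟩
  obtain ⟨S, hS⟩ : ∃ S : ℝ, S = ∑ p ∈ P, (k : ℝ) / p := ⟨_, rfl⟩
  have hSeq : S = k * ∑ p ∈ P, (1 : ℝ) / p := by
    rw [hS, Finset.mul_sum]
    refine Finset.sum_congr rfl fun p _ ↦ by ring
  have hkpos : (0 : ℝ) < k := by
    have : 0 < k := by omega
    exact_mod_cast this
  have hSl : (k : ℝ) * B ≤ S := by rw [hSeq]; gcongr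
  have hSu : S ≤ k * (B + 1) := by rw [hSeq]; gcongr
  have hS0 : 0 ≤ S := le_trans (by positivity) hSl
  have hPcard : P.card ≤ Q := by
    have : P ⊆ Finset.Icc 1 Q := by
      intro p hp
      rw [Finset.mem_Icc]
      exact ⟨(hP1 p hp).1.one_le, (hP2 p hp).2⟩
    calc P.card ≤ (Finset.Icc 1 Q).card := Finset.card_le_card this
      _ = Q := by simp
  have hdiff : ∀ p ∈ P, ∀ σ ∈ γ, ∀ τ ∈ γ, σ ≠ τ → (σ - τ).norm < p := by
    intro p hp σ hσ τ hτ _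
    have h1 := diff_norm_lt k N hkN σ τ (hγb σ hσ) (hγb τ hτ)
    have h8 : ((k : ℤ) ^ 3) < p := by exact_mod_cast (hP2 p hp).1
    linarith
  have hmain := sieve_gamma P hP1 γ k hγ hdiff v w hP3 T r
  rw [← hS] at hmain
  have e1 : Real.exp (-S) ≤ Real.exp (-(k * B)) := Real.exp_le_exp.2 (by linarith)
  have e2 : S ^ (2 * r + 1) / ((2 * r + 1).factorial : ℝ) ≤ Real.exp (-(k * B)) :=
    (tail_bound S hS0 (2 * r + 1) (num1 k B r S hSu hr)).trans (num2 k B r hr)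
  have e3 : (1 + (k : ℝ) * P.card) ^ (2 * r) ≤ (1 + (k : ℝ) * Q) ^ (2 * r) := by
    gcongr
  rw [← hr]
  calc _ ≤ _ := hmain
    _ ≤ T * (Real.exp (-(k * B)) + Real.exp (-(k * B))) + (1 + (k : ℝ) * Q) ^ (2 * r) := by
        gcongr
    _ = _ := by ring

lemma far_norm (N k A Q C : ℕ) (hA1 : 1 ≤ A) (hk3 : 3 ≤ k) (hk2N : 2 * N ≤ k)
    (hQ' : Q = k ^ (3 * A)) (hC : 6 * A + 3 ≤ C) (z σ : GaussianInt) (hz : (k : ℤ) ^ C ≤ z.norm)
    (h2 : |σ.re| ≤ (2 * (k - 1) : ℕ) * N ∧ |σ.im| ≤ (2 * (k - 1) : ℕ) * N) (p : ℕ) (hp : p ≤ Q)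
    (h1 : (z + σ).norm ≤ (p : ℤ) ^ 2) : False := by
  have hpQ : (p : ℤ) ≤ Q := by exact_mod_cast hp
  have hQ0 : (0 : ℤ) ≤ Q := by positivity
  have h3 : (z + σ).norm ≤ (Q : ℤ) ^ 2 := by
    refine h1.trans ?_
    have : (0 : ℤ) ≤ p := by positivity
    gcongr
  obtain ⟨h4, h5⟩ := abs_le_of_norm hQ0 h3
  have hm := mN_le k N
  have hkQ : (2 * k * N : ℤ) ≤ Q := by
    have a1 : (2 * N : ℤ) ≤ k := by exact_mod_cast hk2N
    have a2 : k ^ 2 ≤ Q := by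
      rw [hQ']
      exact Nat.pow_le_pow_right (by omega) (by omega)
    have a3 : (k : ℤ) ^ 2 ≤ Q := by exact_mod_cast a2
    have a4 : (0 : ℤ) ≤ k := by positivity
    calc (2 * k * N : ℤ) = k * (2 * N) := by ring
      _ ≤ k * k := by gcongr
      _ = (k : ℤ) ^ 2 := by ring
      _ ≤ Q := a3
  have h6 : |z.re| ≤ 2 * Q := by
    have : z.re = (z + σ).re - σ.re := by simp
    rw [this]
    refine (abs_sub _ _).trans ?_
    linarith [h2.1]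
  have h7 : |z.im| ≤ 2 * Q := by
    have : z.im = (z + σ).im - σ.im := by simp
    rw [this]
    refine (abs_sub _ _).trans ?_
    linarith [h2.2]
  have h8 := norm_le_of_abs h6 h7
  have h9 : (8 : ℤ) * (Q : ℤ) ^ 2 < (k : ℤ) ^ C := by
    have a1 : 8 * Q ^ 2 < k ^ C := by
      rw [hQ']
      calc 8 * (k ^ (3 * A)) ^ 2 < k ^ 3 * (k ^ (3 * A)) ^ 2 := by
            have : 8 < k ^ 3 := by
              calc 8 < 3 ^ 3 := by norm_num
                _ ≤ k ^ 3 := by gcongr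
            have h0 : 0 < (k ^ (3 * A)) ^ 2 := by positivity
            exact Nat.mul_lt_mul_of_pos_right this h0
        _ = k ^ (6 * A + 3) := by ring
        _ ≤ k ^ C := Nat.pow_le_pow_right (by omega) hC
    exact_mod_cast a1
  linarith

lemma numeric (K B k A Q C T b : ℕ) (hK1 : 1 ≤ K) (hB : B = 30 * K ^ 2) (hkK : 15 * K ^ 2 ≤ k)
    (hk3 : 3 ≤ k) (hQ' : Q = k ^ (3 * A)) (hC : C = (3 * A + 2) * (8 * (B + 1)) + 1)
    (hT : k ^ (C * k) ≤ T) (hb : b ≤ K) :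
    ((b ^ (2 * (k - 1)) : ℕ) : ℝ) *
      (2 * T * Real.exp (-(k * B)) + (1 + (k : ℝ) * Q) ^ (2 * (4 * k * (B + 1)))) ≤
      (T : ℝ) * Real.exp (-(2 * k)) := by
  have hKr : (1 : ℝ) ≤ K := by exact_mod_cast hK1
  have hcardK : ((b ^ (2 * (k - 1)) : ℕ) : ℝ) ≤ (K : ℝ) ^ (2 * k) := by
    have h1 : b ^ (2 * (k - 1)) ≤ K ^ (2 * k) := by
      calc b ^ (2 * (k - 1)) ≤ K ^ (2 * (k - 1)) :=
            Nat.pow_le_pow_left hb _
        _ ≤ K ^ (2 * k) := Nat.pow_le_pow_right hK1 (by omega)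
    exact_mod_cast h1
  have hexp2 : Real.exp 2 ≤ 7.39 := by
    have h5 : Real.exp 2 = (Real.exp 1) ^ 2 := by rw [← Real.exp_nat_mul]; norm_num
    rw [h5]
    have := Real.exp_one_lt_d9
    have h6 := Real.exp_pos 1
    nlinarith
  have hBexp : 4 * Real.exp 2 * (K : ℝ) ^ 2 ≤ Real.exp B := by
    have h1 := Real.add_one_le_exp (B : ℝ)
    have h2 : (B : ℝ) = 30 * (K : ℝ) ^ 2 := by rw [hB]; push_cast; ring
    have h4 : (1 : ℝ) ≤ (K : ℝ) ^ 2 := one_le_pow₀ hKr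
    nlinarith
  have part1 : (K : ℝ) ^ (2 * k) * (2 * T * Real.exp (-(k * B))) ≤
      (T : ℝ) * Real.exp (-(2 * k)) / 2 := by
    have h1 : (4 * Real.exp 2 * (K : ℝ) ^ 2) ^ k ≤ (Real.exp B) ^ k :=
      pow_le_pow_left₀ (by positivity) hBexp k
    have h2 : (Real.exp B) ^ k = Real.exp (k * B) := by rw [← Real.exp_nat_mul]
    have h3 : (4 * Real.exp 2 * (K : ℝ) ^ 2) ^ k = 4 ^ k * Real.exp (2 * k) * (K : ℝ) ^ (2 * k) := by
      rw [mul_pow, mul_pow, ← pow_mul, ← Real.exp_nat_mul]; ring_nf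
    have h4 : (4 : ℝ) ≤ 4 ^ k := by
      calc (4 : ℝ) = 4 ^ 1 := by norm_num
        _ ≤ 4 ^ k := pow_le_pow_right₀ (by norm_num) (by omega)
    have h5 : 4 * Real.exp (2 * k) * (K : ℝ) ^ (2 * k) ≤ Real.exp (k * B) := by
      calc 4 * Real.exp (2 * k) * (K : ℝ) ^ (2 * k) ≤ 4 ^ k * Real.exp (2 * k) * (K : ℝ) ^ (2 * k) := by
            gcongr
        _ ≤ Real.exp (k * B) := by rw [← h3, ← h2]; exact h1
    have h6 : (K : ℝ) ^ (2 * k) ≤ Real.exp (k * B) * Real.exp (-(2 * k)) / 4 := by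
      rw [le_div_iff₀ (by norm_num), Real.exp_neg, ← div_eq_mul_inv, le_div_iff₀ (Real.exp_pos _)]
      linarith
    calc (K : ℝ) ^ (2 * k) * (2 * T * Real.exp (-(k * B)))
        ≤ (Real.exp (k * B) * Real.exp (-(2 * k)) / 4) * (2 * T * Real.exp (-(k * B))) := by gcongr
      _ = (T : ℝ) * Real.exp (-(2 * k)) / 2 * (Real.exp (k * B) * Real.exp (-(k * B))) := by ring
      _ = (T : ℝ) * Real.exp (-(2 * k)) / 2 := by rw [← Real.exp_add]; simp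
  have part2 : (K : ℝ) ^ (2 * k) * (1 + (k : ℝ) * Q) ^ (2 * (4 * k * (B + 1))) ≤
      (T : ℝ) * Real.exp (-(2 * k)) / 2 := by
    have h1 : 1 + k * Q ≤ k ^ (3 * A + 2) := by
      rw [hQ']
      have : 1 ≤ k * k ^ (3 * A) := Nat.one_le_iff_ne_zero.2 (by positivity)
      calc 1 + k * k ^ (3 * A) ≤ k * k ^ (3 * A) + k * k ^ (3 * A) := by omega
        _ = 2 * (k * k ^ (3 * A)) := by ring
        _ ≤ k * (k * k ^ (3 * A)) := Nat.mul_le_mul_right _ (by omega)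
        _ = k ^ (3 * A + 2) := by ring
    have h2 : (1 + k * Q) ^ (2 * (4 * k * (B + 1))) ≤ k ^ ((C - 1) * k) := by
      calc (1 + k * Q) ^ (2 * (4 * k * (B + 1))) ≤ (k ^ (3 * A + 2)) ^ (2 * (4 * k * (B + 1))) :=
            Nat.pow_le_pow_left h1 _
        _ = k ^ ((C - 1) * k) := by
            rw [← pow_mul]; congr 1
            rw [hC]
            simp only [Nat.add_sub_cancel]
            ring
    have h3 : (K : ℝ) ^ (2 * k) * (2 * Real.exp (2 * k)) ≤ (k : ℝ) ^ k := by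
      have e1 : Real.exp (2 * k) = (Real.exp 2) ^ k := by rw [← Real.exp_nat_mul]; ring_nf
      have e2 : (2 : ℝ) ≤ 2 ^ k := by
        calc (2 : ℝ) = 2 ^ 1 := by norm_num
          _ ≤ 2 ^ k := pow_le_pow_right₀ (by norm_num) (by omega)
      calc (K : ℝ) ^ (2 * k) * (2 * Real.exp (2 * k)) ≤
            (K : ℝ) ^ (2 * k) * (2 ^ k * Real.exp (2 * k)) := by
            gcongr
        _ = ((K : ℝ) ^ 2 * (2 * Real.exp 2)) ^ k := by
            rw [e1, mul_pow, mul_pow, ← pow_mul]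
        _ ≤ (k : ℝ) ^ k := by
            gcongr
            have h5 : (15 * (K : ℝ) ^ 2) ≤ k := by exact_mod_cast hkK
            have h6 : (0 : ℝ) ≤ (K : ℝ) ^ 2 := by positivity
            nlinarith
    have h4 : ((1 + (k : ℝ) * Q) ^ (2 * (4 * k * (B + 1)))) ≤ (k : ℝ) ^ ((C - 1) * k) := by
      exact_mod_cast h2
    have h5 : (k : ℝ) ^ k * (k : ℝ) ^ ((C - 1) * k) ≤ T := by
      have h6 : k ^ k * k ^ ((C - 1) * k) ≤ T := by
        refine le_trans (le_of_eq ?_) hT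
        rw [← pow_add]
        congr 1
        have : C = (C - 1) + 1 := by omega
        conv_rhs => rw [this]
        ring
      exact_mod_cast h6
    rw [Real.exp_neg, ← div_eq_mul_inv, div_div, le_div_iff₀ (by positivity)]
    calc (K : ℝ) ^ (2 * k) * (1 + (k : ℝ) * Q) ^ (2 * (4 * k * (B + 1))) * (Real.exp (2 * k) * 2)
        = ((K : ℝ) ^ (2 * k) * (2 * Real.exp (2 * k))) * (1 + (k : ℝ) * Q) ^ (2 * (4 * k * (B + 1))) := by
          ring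
      _ ≤ (k : ℝ) ^ k * (k : ℝ) ^ ((C - 1) * k) := by gcongr
      _ ≤ T := h5
  calc ((b ^ (2 * (k - 1)) : ℕ) : ℝ) *
      (2 * T * Real.exp (-(k * B)) + (1 + (k : ℝ) * Q) ^ (2 * (4 * k * (B + 1))))
      ≤ (K : ℝ) ^ (2 * k) *
      (2 * T * Real.exp (-(k * B)) + (1 + (k : ℝ) * Q) ^ (2 * (4 * k * (B + 1)))) := by gcongr
    _ = (K : ℝ) ^ (2 * k) * (2 * T * Real.exp (-(k * B))) +
        (K : ℝ) ^ (2 * k) * (1 + (k : ℝ) * Q) ^ (2 * (4 * k * (B + 1))) := by ring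
    _ ≤ (T : ℝ) * Real.exp (-(2 * k)) := by linarith

theorem row_bound (N : ℕ) : ∃ C k0 : ℕ, 1 ≤ k0 ∧ 1 ≤ C ∧ ∀ k ≥ k0, ∀ D : ℝ, D ≤ N →
    ∀ v w : GaussianInt, v ≠ 0 → v.norm ≤ 2 ^ (k ^ 2) → ∀ T : ℕ, k ^ (C * k) ≤ T →
    (((range T).filter (fun t : ℕ ↦ (k : ℤ) ^ C ≤ (w + t * v).norm ∧
      ∃ h : Irreducible (w + t * v),
        (k : ℕ∞) ≤ ((moatGraph D).connectedComponentMk ⟨w + t * v, h⟩).supp.encard)).card : ℝ) ≤
      T * Real.exp (-(2 * k)) := by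
  obtain ⟨K, hK⟩ : ∃ K : ℕ, K = (2 * N + 1) ^ 2 := ⟨_, rfl⟩
  have hK1 : 1 ≤ K := by rw [hK]; exact Nat.one_le_pow _ _ (by omega)
  obtain ⟨B, hB⟩ : ∃ B : ℕ, B = 30 * K ^ 2 := ⟨_, rfl⟩
  obtain ⟨A, k1, hA1, hk11, hsel⟩ := select_primes B
  obtain ⟨C, hC⟩ : ∃ C : ℕ, C = (3 * A + 2) * (8 * (B + 1)) + 1 := ⟨_, rfl⟩
  have hCA : 6 * A + 3 ≤ C := by rw [hC]; nlinarith [Nat.zero_le B, Nat.zero_le (A * B)]
  refine ⟨C, k1 + 15 * K ^ 2 + 32 * N ^ 2 + 2 * N + 3, by omega, by omega, ?_⟩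
  intro k hk D hD v w hv0 hv T hT
  have hkk1 : k1 ≤ k := by omega
  have hkK : 15 * K ^ 2 ≤ k := by omega
  have hkN : 32 * N ^ 2 < k := by omega
  have hk2N : 2 * N ≤ k := by omega
  have hk3 : 3 ≤ k := by omega
  obtain ⟨P, hP1, hP2, hP3, hPl, hPu⟩ := hsel k hkk1 v hv0 hv
  obtain ⟨Q, hQ⟩ : ∃ Q : ℕ, Q = (k ^ 3) ^ A := ⟨_, rfl⟩
  have hQ' : Q = k ^ (3 * A) := by rw [hQ, ← pow_mul]
  rw [← hQ] at hP2
  obtain ⟨E, hE⟩ : ∃ E : ℝ, E = 2 * T * Real.exp (-(k * B)) +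
      (1 + (k : ℝ) * Q) ^ (2 * (4 * k * (B + 1))) := ⟨_, rfl⟩
  have hE0 : 0 ≤ E := by rw [hE]; positivity
  have hone : ∀ γ : Finset GaussianInt, γ.card = k →
      (∀ σ ∈ γ, |σ.re| ≤ (2 * (k - 1) : ℕ) * N ∧ |σ.im| ≤ (2 * (k - 1) : ℕ) * N) →
      (((range T).filter (fun t : ℕ ↦ ∀ p ∈ P, ∀ σ ∈ γ,
        ph p (w + t * v + σ) ≠ 0)).card : ℝ) ≤ E := by
    intro γ hγ hγb
    rw [hE]
    exact one_gamma N k B Q T hk3 hkN P hP1 hP2 v w hP3 hPl hPu γ hγ hγb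
  have hunion : (((range T).filter (fun t : ℕ ↦ (k : ℤ) ^ C ≤ (w + t * v).norm ∧
      ∃ h : Irreducible (w + t * v),
        (k : ℕ∞) ≤ ((moatGraph D).connectedComponentMk ⟨w + t * v, h⟩).supp.encard)).card : ℝ) ≤
      ∑ f ∈ Fintype.piFinset (fun _ : Fin (2 * (k - 1)) ↦ box N), E := by
    have hsub : (range T).filter (fun t : ℕ ↦ (k : ℤ) ^ C ≤ (w + t * v).norm ∧
        ∃ h : Irreducible (w + t * v),
        (k : ℕ∞) ≤ ((moatGraph D).connectedComponentMk ⟨w + t * v, h⟩).supp.encard) ⊆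
        (Fintype.piFinset (fun _ : Fin (2 * (k - 1)) ↦ box N)).biUnion (fun f ↦
          (range T).filter (fun t : ℕ ↦ k ≤ (pts f).card ∧ ∀ p ∈ P, ∀ σ ∈ pts f,
            ph p (w + t * v + σ) ≠ 0)) := by
      intro t ht
      rw [mem_filter] at ht
      obtain ⟨ht1, ht2, hirr, ht3⟩ := ht
      obtain ⟨f, hf, hfc, hfi⟩ := exists_fun hD ⟨w + t * v, hirr⟩ k (by omega) ht3
      rw [mem_biUnion]
      refine ⟨f, hf, ?_⟩
      rw [mem_filter]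
      refine ⟨ht1, hfc, fun p hp σ hσ hph ↦ ?_⟩
      have h1 := ph_irreducible (hP1 p hp).1 (hP1 p hp).2 (hfi σ hσ) hph
      have h2 := pts_bound f hf hσ
      exact far_norm N k A Q C hA1 hk3 hk2N hQ' hCA (w + t * v) σ ht2 h2 p (hP2 p hp).2 h1
    calc _ ≤ (((Fintype.piFinset (fun _ : Fin (2 * (k - 1)) ↦ box N)).biUnion (fun f ↦
          (range T).filter (fun t : ℕ ↦ k ≤ (pts f).card ∧ ∀ p ∈ P, ∀ σ ∈ pts f,
            ph p (w + t * v + σ) ≠ 0))).card : ℝ) := Nat.cast_le.2 (Finset.card_le_card hsub)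
      _ ≤ ((∑ f ∈ Fintype.piFinset (fun _ : Fin (2 * (k - 1)) ↦ box N),
          ((range T).filter (fun t : ℕ ↦ k ≤ (pts f).card ∧ ∀ p ∈ P, ∀ σ ∈ pts f,
            ph p (w + t * v + σ) ≠ 0)).card : ℕ) : ℝ) := Nat.cast_le.2 Finset.card_biUnion_le
      _ ≤ ∑ f ∈ Fintype.piFinset (fun _ : Fin (2 * (k - 1)) ↦ box N), E := by
          push_cast
          refine Finset.sum_le_sum fun f hf ↦ ?_
          by_cases hfc : k ≤ (pts f).card
          · obtain ⟨γ, hγsub, hγc⟩ := Finset.exists_subset_card_eq hfc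
            refine le_trans ?_ (hone γ hγc (fun σ hσ ↦ pts_bound f hf (hγsub hσ)))
            refine Nat.cast_le.2 (Finset.card_le_card ?_)
            intro t ht
            rw [mem_filter] at ht ⊢
            exact ⟨ht.1, fun p hp σ hσ ↦ ht.2.2 p hp σ (hγsub hσ)⟩
          · have : (range T).filter (fun t : ℕ ↦ k ≤ (pts f).card ∧ ∀ p ∈ P, ∀ σ ∈ pts f,
                ph p (w + t * v + σ) ≠ 0) = ∅ := by
              refine Finset.filter_eq_empty_iff.2 ?_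
              intro t _ h
              exact hfc h.1
            rw [this]
            simpa using hE0
  refine hunion.trans ?_
  rw [Finset.sum_const, Fintype.card_piFinset_const, nsmul_eq_mul, hE]
  refine numeric K B k A Q C T _ hK1 hB hkK hk3 hQ' hC hT ?_
  rw [hK]; exact card_box N

end Vale.Agent.P015
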