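import Mathlib.Tactic
import Vale.Agent.P015.Row

namespace Vale.Agent.P015

open Finset Classical

/-- the predicate bounded by the row theorem -/
def RowProp (N C k : ℕ) : Prop := ∀ D : ℝ, D ≤ N →
    ∀ v w : GaussianInt, v ≠ 0 → v.norm ≤ 2 ^ (k ^ 2) → ∀ T : ℕ, k ^ (C * k) ≤ T →
    (((range T).filter (fun t : ℕ ↦ (k : ℤ) ^ C ≤ (w + t * v).norm ∧
      ∃ h : Irreducible (w + t * v),
        (k : ℕ∞) ≤ ((moatGraph D).connectedComponentMk ⟨w + t * v, h⟩).supp.encard)).card : ℝ) ≤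
      T * Real.exp (-(2 * k))

lemma small_card (k C : ℕ) (hk : 1 ≤ k) (S : Finset GaussianInt)
    (hS : ∀ z ∈ S, z.norm < (k : ℤ) ^ C) : S.card ≤ (2 * k ^ C + 1) ^ 2 := by
  refine le_trans (Finset.card_le_card ?_) (card_box (k ^ C))
  intro z hz
  have h1 := hS z hz
  have h2 : (1 : ℤ) ≤ (k : ℤ) ^ C := by
    have : 1 ≤ k ^ C := Nat.one_le_pow _ _ hk
    exact_mod_cast this
  have h3 : z.norm ≤ ((k : ℤ) ^ C) ^ 2 := by nlinarith
  rw [mem_box]
  push_cast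
  exact abs_le_of_norm (by linarith) h3

lemma disc_bound_aux (N C k : ℕ) (hk : 9 ≤ k) (hrow : RowProp N C k)
    (D : ℝ) (hD : D ≤ N) (a : ℂ) (R : ℝ) (hR : (k : ℝ) ^ ((C + 1) * k) ≤ R)
    (S : Finset {z : GaussianInt // Irreducible z})
    (hS : ∀ z ∈ S, ‖(z.1 : ℂ) - a‖ ≤ R ∧
      (k : ℕ∞) ≤ ((moatGraph D).connectedComponentMk z).supp.encard) :
    (S.card : ℝ) ≤ 10 * R ^ 2 * Real.exp (-(2 * k)) := by
  have hk1 : (1 : ℝ) ≤ k := by
    have : 1 ≤ k := by omega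
    exact_mod_cast this
  have hkC1 : (1 : ℝ) ≤ (k : ℝ) ^ C := one_le_pow₀ hk1
  have hkk : 3 * Real.exp k * (k : ℝ) ^ C ≤ R := by
    have e1 : (k : ℝ) ^ ((C + 1) * k) = (k : ℝ) ^ (C * k) * (k : ℝ) ^ k := by
      rw [← pow_add]; ring_nf
    have e2 : (k : ℝ) ^ C ≤ (k : ℝ) ^ (C * k) := pow_le_pow_right₀ hk1 (by nlinarith)
    have e3 : 3 * Real.exp k ≤ (k : ℝ) ^ k := by
      have f1 : Real.exp k = (Real.exp 1) ^ k := by rw [← Real.exp_nat_mul]; ring_nf
      have f2 : (3 : ℝ) ≤ 3 ^ k := by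
        calc (3 : ℝ) = 3 ^ 1 := by norm_num
          _ ≤ 3 ^ k := pow_le_pow_right₀ (by norm_num) (by omega)
      have f3 := Real.exp_one_lt_d9
      have f4 : (9 : ℝ) ≤ k := by exact_mod_cast hk
      calc 3 * Real.exp k ≤ 3 ^ k * (Real.exp 1) ^ k := by rw [f1]; gcongr
        _ = (3 * Real.exp 1) ^ k := by rw [mul_pow]
        _ ≤ (k : ℝ) ^ k := by gcongr; linarith
    calc 3 * Real.exp k * (k : ℝ) ^ C ≤ (k : ℝ) ^ k * (k : ℝ) ^ (C * k) := by gcongr
      _ = (k : ℝ) ^ ((C + 1) * k) := by rw [e1]; ring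
      _ ≤ R := hR
  have hR1 : (1 : ℝ) ≤ R := by
    have := Real.add_one_le_exp (k : ℝ)
    nlinarith
  set S' : Finset GaussianInt := S.image Subtype.val with hS'
  have hcard : S'.card = S.card := Finset.card_image_of_injective _ Subtype.val_injective
  set S1 := S'.filter (fun z ↦ ¬ ((k : ℤ) ^ C ≤ z.norm)) with hS1
  set S2 := S'.filter (fun z ↦ (k : ℤ) ^ C ≤ z.norm) with hS2
  have hS12 : S2.card + S1.card = S'.card := Finset.card_filter_add_card_filter_not _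
  have hb1 : S1.card ≤ (2 * k ^ C + 1) ^ 2 :=
    small_card k C (by omega) S1 (fun z hz ↦ by
      rw [hS1, mem_filter] at hz
      exact not_le.1 hz.2)
  -- fibers
  set T : ℕ := ⌊2 * R⌋₊ + 1 with hT
  have hTR : (T : ℝ) ≤ 2 * R + 1 := by
    rw [hT]; push_cast
    have := Nat.floor_le (show 0 ≤ 2 * R by linarith)
    linarith
  have hTk : k ^ (C * k) ≤ T := by
    have h1 : ((k ^ (C * k) : ℕ) : ℝ) ≤ 2 * R := by
      push_cast
      calc (k : ℝ) ^ (C * k) ≤ (k : ℝ) ^ ((C + 1) * k) := pow_le_pow_right₀ hk1 (by nlinarith)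
        _ ≤ R := hR
        _ ≤ 2 * R := by linarith
    have h2 := Nat.le_floor h1
    omega
  set I : Finset ℤ := Finset.Icc ⌈a.im - R⌉ ⌊a.im + R⌋ with hI
  have hIcard : (I.card : ℝ) ≤ 2 * R + 1 := by
    rw [hI, Int.card_Icc]
    have h1 : (⌊a.im + R⌋ : ℝ) ≤ a.im + R := Int.floor_le _
    have h2 : a.im - R ≤ (⌈a.im - R⌉ : ℝ) := Int.le_ceil _
    rcases le_or_gt 0 (⌊a.im + R⌋ + 1 - ⌈a.im - R⌉) with h | h
    · have h3 : (((⌊a.im + R⌋ + 1 - ⌈a.im - R⌉).toNat : ℤ) : ℝ) =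
          ((⌊a.im + R⌋ + 1 - ⌈a.im - R⌉ : ℤ) : ℝ) := by
        rw [Int.toNat_of_nonneg h]
      rw [Int.cast_natCast] at h3
      rw [h3]; push_cast; linarith
    · rw [Int.toNat_of_nonpos h.le]; push_cast; linarith
  have hmem : ∀ z ∈ S2, ∃ h : Irreducible z, |(z.re : ℝ) - a.re| ≤ R ∧ |(z.im : ℝ) - a.im| ≤ R ∧
      (k : ℤ) ^ C ≤ z.norm ∧
      (k : ℕ∞) ≤ ((moatGraph D).connectedComponentMk ⟨z, h⟩).supp.encard := by
    intro z hz
    rw [hS2, mem_filter, hS', mem_image] at hz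
    obtain ⟨⟨z', hz', rfl⟩, hn⟩ := hz
    refine ⟨z'.2, ?_, ?_, hn, (hS z' hz').2⟩
    · have := (Complex.abs_re_le_norm ((z'.1 : ℂ) - a)).trans (hS z' hz').1
      simpa using this
    · have := (Complex.abs_im_le_norm ((z'.1 : ℂ) - a)).trans (hS z' hz').1
      simpa using this
  have hmaps : ∀ z ∈ S2, z.im ∈ I := by
    intro z hz
    obtain ⟨_, _, h2, _⟩ := hmem z hz
    rw [abs_le] at h2
    rw [hI, Finset.mem_Icc]
    constructor
    · rw [Int.ceil_le]; linarith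
    · rw [Int.le_floor]; linarith
  have hfib : ∀ y ∈ I, ((S2.filter (fun z ↦ z.im = y)).card : ℝ) ≤ T * Real.exp (-(2 * k)) := by
    intro y _
    have h1 := hrow D hD 1 ⟨⌈a.re - R⌉, y⟩ one_ne_zero (by
      rw [Zsqrtd.norm_one]; exact_mod_cast Nat.one_le_pow _ _ (by norm_num)) T hTk
    refine le_trans ?_ h1
    refine Nat.cast_le.2 (Finset.card_le_card_of_injOn (fun z ↦ (z.re - ⌈a.re - R⌉).toNat) ?_ ?_)
    · intro z hz
      rw [Finset.mem_coe, mem_filter] at hz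
      obtain ⟨hirr, h2, _, h4, h5⟩ := hmem z hz.1
      rw [abs_le] at h2
      have h6 : ⌈a.re - R⌉ ≤ z.re := by rw [Int.ceil_le]; linarith
      have h7 : ((z.re - ⌈a.re - R⌉).toNat : ℤ) = z.re - ⌈a.re - R⌉ :=
        Int.toNat_of_nonneg (by linarith)
      have h8 : (⟨⌈a.re - R⌉, y⟩ : GaussianInt) + ((z.re - ⌈a.re - R⌉).toNat : ℕ) * 1 = z := by
        have h9 : (((z.re - ⌈a.re - R⌉).toNat : ℕ) : GaussianInt) =
            (((z.re - ⌈a.re - R⌉ : ℤ)) : GaussianInt) := by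
          conv_lhs => rw [← Int.cast_natCast, h7]
        rw [mul_one, h9]
        ext
        · simp
        · simp [hz.2]
      rw [Finset.mem_coe, mem_filter, mem_range]
      refine ⟨?_, ?_⟩
      · have h10 : (((z.re - ⌈a.re - R⌉).toNat : ℕ) : ℝ) ≤ 2 * R := by
          have h11 : (((z.re - ⌈a.re - R⌉).toNat : ℤ) : ℝ) = ((z.re - ⌈a.re - R⌉ : ℤ) : ℝ) := by
            rw [h7]
          rw [Int.cast_natCast] at h11
          rw [h11]; push_cast
          have := Int.le_ceil (a.re - R)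
          linarith
        have h12 := Nat.le_floor h10
        change (z.re - ⌈a.re - R⌉).toNat < T
        omega
      · simp only [h8]
        exact ⟨h4, hirr, h5⟩
    · intro z hz z' hz' hzz
      rw [Finset.mem_coe, mem_filter] at hz hz'
      obtain ⟨_, h2, _⟩ := hmem z hz.1
      obtain ⟨_, h2', _⟩ := hmem z' hz'.1
      rw [abs_le] at h2 h2'
      have h6 : ⌈a.re - R⌉ ≤ z.re := by rw [Int.ceil_le]; linarith
      have h6' : ⌈a.re - R⌉ ≤ z'.re := by rw [Int.ceil_le]; linarith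
      simp only at hzz
      have h7 : z.re - ⌈a.re - R⌉ = z'.re - ⌈a.re - R⌉ := by
        have : (((z.re - ⌈a.re - R⌉).toNat : ℕ) : ℤ) = ((z'.re - ⌈a.re - R⌉).toNat : ℕ) := by
          rw [hzz]
        rwa [Int.toNat_of_nonneg (by linarith), Int.toNat_of_nonneg (by linarith)] at this
      ext
      · linarith
      · rw [hz.2, hz'.2]
  have hS2card : (S2.card : ℝ) ≤ (2 * R + 1) * (T * Real.exp (-(2 * k))) := by
    rw [Finset.card_eq_sum_card_fiberwise hmaps]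
    push_cast
    calc ∑ y ∈ I, ((S2.filter (fun z ↦ z.im = y)).card : ℝ)
        ≤ ∑ y ∈ I, T * Real.exp (-(2 * k)) := Finset.sum_le_sum hfib
      _ = I.card * (T * Real.exp (-(2 * k))) := by rw [Finset.sum_const, nsmul_eq_mul]
      _ ≤ (2 * R + 1) * (T * Real.exp (-(2 * k))) := by gcongr
  have hA : (S2.card : ℝ) ≤ 9 * R ^ 2 * Real.exp (-(2 * k)) := by
    calc (S2.card : ℝ) ≤ (2 * R + 1) * (T * Real.exp (-(2 * k))) := hS2card
      _ ≤ (3 * R) * ((3 * R) * Real.exp (-(2 * k))) := by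
          gcongr
          · linarith
          · linarith
      _ = 9 * R ^ 2 * Real.exp (-(2 * k)) := by ring
  have hB : (S1.card : ℝ) ≤ R ^ 2 * Real.exp (-(2 * k)) := by
    have h1 : (S1.card : ℝ) ≤ (2 * (k : ℝ) ^ C + 1) ^ 2 := by exact_mod_cast hb1
    have h2 : (2 * (k : ℝ) ^ C + 1) ≤ R * Real.exp (-k) := by
      rw [Real.exp_neg, ← div_eq_mul_inv, le_div_iff₀ (Real.exp_pos _)]
      have := Real.exp_pos (k : ℝ)
      nlinarith
    calc (S1.card : ℝ) ≤ (2 * (k : ℝ) ^ C + 1) ^ 2 := h1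
      _ ≤ (R * Real.exp (-k)) ^ 2 := by gcongr
      _ = R ^ 2 * Real.exp (-(2 * k)) := by
          rw [mul_pow, ← Real.exp_nat_mul]; ring_nf
  rw [← hcard, ← hS12]
  push_cast
  linarith

end Vale.Agent.P015
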