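import Mathlib.Tactic
import Mathlib.NumberTheory.DiophantineApproximation.Basic
import Vale.Agent.P015.Disc

namespace Vale.Agent.P015

open Finset Classical

def XX (u v : GaussianInt) : ℤ := u.re * v.re + u.im * v.im
def YY (u v : GaussianInt) : ℤ := u.im * v.re - u.re * v.im

lemma line_param (u v : GaussianInt) (hv : IsCoprime v.re v.im) (h : YY u v = 0) :
    ∃ t : ℤ, u = t * v ∧ XX u v = t * v.norm := by
  obtain ⟨α, β, hab⟩ := hv
  unfold YY at h
  have e1 : u.re = (α * u.re + β * u.im) * v.re := by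
    linear_combination (-u.re) * hab - β * h
  have e2 : u.im = (α * u.re + β * u.im) * v.im := by
    linear_combination (-u.im) * hab + α * h
  refine ⟨α * u.re + β * u.im, ?_, ?_⟩
  · ext
    · simp only [Zsqrtd.re_mul, Zsqrtd.re_intCast, Zsqrtd.im_intCast]
      linear_combination e1
    · simp only [Zsqrtd.im_mul, Zsqrtd.re_intCast, Zsqrtd.im_intCast]
      linear_combination e2
  · unfold XX
    rw [Zsqrtd.norm_def]
    linear_combination v.re * e1 + v.im * e2

lemma tube_count (N C k T M : ℕ) (hrow : RowProp N C k) (D : ℝ) (hD : D ≤ N)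
    (v : GaussianInt) (hv : IsCoprime v.re v.im) (hv0 : v ≠ 0) (hvn : v.norm ≤ 2 ^ (k ^ 2))
    (hT : k ^ (C * k) ≤ T) (S : Finset GaussianInt)
    (hS : ∀ z ∈ S, (k : ℤ) ^ C ≤ z.norm ∧ ∃ h : Irreducible z,
      (k : ℕ∞) ≤ ((moatGraph D).connectedComponentMk ⟨z, h⟩).supp.encard)
    (hX : ∀ z ∈ S, ∀ z' ∈ S, XX (z - z') v < T * v.norm)
    (hY : ∀ z ∈ S, ∀ z' ∈ S, |YY (z - z') v| ≤ M) :
    (S.card : ℝ) ≤ (2 * M + 1) * (T * Real.exp (-(2 * k))) := by
  rcases S.eq_empty_or_nonempty with rfl | ⟨zs, hzs⟩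
  · simp; positivity
  have hvpos := norm_pos' hv0
  have hmaps : ∀ z ∈ S, YY (z - zs) v ∈ Finset.Icc (-(M : ℤ)) M := by
    intro z hz
    rw [Finset.mem_Icc]
    exact abs_le.1 (hY z hz zs hzs)
  have hfib : ∀ y ∈ Finset.Icc (-(M : ℤ)) M,
      ((S.filter (fun z ↦ YY (z - zs) v = y)).card : ℝ) ≤ T * Real.exp (-(2 * k)) := by
    intro y _
    rcases (S.filter (fun z ↦ YY (z - zs) v = y)).eq_empty_or_nonempty with he | hne
    · rw [he]; simp; positivity
    obtain ⟨z0, hz0, hmin⟩ := Finset.exists_min_image _ (fun z ↦ XX (z - zs) v) hne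
    rw [mem_filter] at hz0
    have hpar : ∀ z ∈ S.filter (fun z ↦ YY (z - zs) v = y), ∃ t : ℤ, z - z0 = t * v ∧
        0 ≤ t ∧ t < T := by
      intro z hz
      have hz' := hz
      rw [mem_filter] at hz
      have h1 : YY (z - z0) v = 0 := by
        have e1 := hz.2
        have e2 := hz0.2
        unfold YY at e1 e2 ⊢
        simp only [Zsqrtd.re_sub, Zsqrtd.im_sub] at e1 e2 ⊢
        linarith
      obtain ⟨t, ht1, ht2⟩ := line_param (z - z0) v hv h1
      have h3 : 0 ≤ XX (z - z0) v := by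
        have := hmin z hz'
        unfold XX at this ⊢
        simp only [Zsqrtd.re_sub, Zsqrtd.im_sub] at this ⊢
        linarith
      have h4 := hX z hz.1 z0 hz0.1
      rw [ht2] at h3 h4
      refine ⟨t, ht1, ?_, ?_⟩
      · by_contra hneg
        push Not at hneg
        nlinarith
      · exact lt_of_mul_lt_mul_right h4 hvpos.le
    have h1 := hrow D hD v z0 hv0 hvn T hT
    refine le_trans ?_ h1
    choose! g hg using hpar
    refine Nat.cast_le.2 (Finset.card_le_card_of_injOn (fun z ↦ (g z).toNat) ?_ ?_)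
    · intro z hz
      rw [Finset.mem_coe] at hz
      obtain ⟨h2, h3, h4⟩ := hg z hz
      have hzS := (mem_filter.1 hz).1
      have h5 : ((g z).toNat : ℤ) = g z := Int.toNat_of_nonneg h3
      have h6 : z0 + ((g z).toNat : ℕ) * v = z := by
        have h9 : (((g z).toNat : ℕ) : GaussianInt) = ((g z : ℤ) : GaussianInt) := by
          conv_lhs => rw [← Int.cast_natCast, h5]
        rw [h9, ← h2]; ring
      rw [Finset.mem_coe, mem_filter, mem_range]
      refine ⟨?_, ?_⟩
      · change (g z).toNat < T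
        omega
      · simp only [h6]
        exact hS z hzS
    · intro z hz z' hz' hzz
      rw [Finset.mem_coe] at hz hz'
      obtain ⟨h2, h3, h4⟩ := hg z hz
      obtain ⟨h2', h3', h4'⟩ := hg z' hz'
      simp only at hzz
      have : g z = g z' := by omega
      rw [this] at h2
      exact sub_left_injective (h2.trans h2'.symm)
  rw [Finset.card_eq_sum_card_fiberwise hmaps]
  push_cast
  calc ∑ y ∈ Finset.Icc (-(M : ℤ)) M, ((S.filter (fun z ↦ YY (z - zs) v = y)).card : ℝ)
      ≤ ∑ y ∈ Finset.Icc (-(M : ℤ)) M, T * Real.exp (-(2 * k)) := Finset.sum_le_sum hfib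
    _ = (2 * M + 1) * (T * Real.exp (-(2 * k))) := by
        rw [Finset.sum_const, nsmul_eq_mul, Int.card_Icc]
        have : ((M : ℤ) + 1 - -(M : ℤ)).toNat = 2 * M + 1 := by omega
        rw [this]; push_cast; ring

lemma dirichlet_dir (a b : ℝ) (hab : a ^ 2 + b ^ 2 = 1) (Q : ℕ) (hQ : 1 ≤ Q) :
    ∃ v : GaussianInt, IsCoprime v.re v.im ∧ v ≠ 0 ∧ |(v.im : ℝ) * a - v.re * b| ≤ 1 / Q ∧
      v.norm ≤ 9 * (Q : ℤ) ^ 2 := by
  have hQ0 : (0 : ℝ) < Q := by exact_mod_cast hQ
  rcases le_or_gt |b| |a| with h | h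
  · have ha : a ≠ 0 := by
      rintro rfl
      simp at h
      subst h
      norm_num at hab
    obtain ⟨q, hq1, hq2⟩ := Real.exists_rat_abs_sub_le_and_den_le (b / a) (n := Q) hQ
    have hdpos : (0 : ℝ) < q.den := by exact_mod_cast q.den_pos
    have hqeq : (q : ℝ) = q.num / q.den := Rat.cast_def q
    have hξ : |b / a| ≤ 1 := by
      rw [abs_div, div_le_one (abs_pos.2 ha)]; exact h
    have ha1 : |a| ≤ 1 := by
      rw [← sq_le_one_iff_abs_le_one]; nlinarith [sq_nonneg b]
    have hq1' : |b / a - q| * q.den ≤ 1 / (Q + 1) := by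
      calc |b / a - q| * q.den ≤ 1 / ((Q + 1) * q.den) * q.den := by gcongr
        _ = 1 / (Q + 1) := by field_simp
    refine ⟨⟨q.den, q.num⟩, ?_, ?_, ?_, ?_⟩
    · have := q.reduced
      rw [Int.isCoprime_iff_nat_coprime]
      simpa [Nat.coprime_comm] using this
    · intro h0
      have := congrArg Zsqrtd.re h0
      simp at this
    · have e1 : ((q.num : ℝ)) * a - (q.den : ℝ) * b = -(a * ((b / a - q) * q.den)) := by
        rw [hqeq]; field_simp; ring
      simp only
      push_cast
      rw [e1, abs_neg, abs_mul, abs_mul, abs_of_pos hdpos]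
      calc |a| * (|b / a - q| * q.den) ≤ 1 * (1 / (Q + 1)) := by gcongr
        _ ≤ 1 / Q := by
          rw [one_mul]
          exact one_div_le_one_div_of_le hQ0 (by linarith)
    · have hden : (q.den : ℝ) ≤ Q := by exact_mod_cast hq2
      have hnum : |(q.num : ℝ)| ≤ 2 * Q := by
        have e2 : (q.num : ℝ) = (b / a) * q.den - (b / a - q) * q.den := by
          rw [hqeq]; field_simp; ring
        rw [e2]
        refine (abs_sub _ _).trans ?_
        rw [abs_mul, abs_mul, abs_of_pos hdpos]
        have e3 : |b / a| * q.den ≤ 1 * Q := by gcongr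
        have e4 : 1 / ((Q : ℝ) + 1) ≤ 1 := by
          rw [div_le_one (by linarith)]; linarith
        have e5 : (1 : ℝ) ≤ Q := by exact_mod_cast hQ
        linarith
      have : ((⟨q.den, q.num⟩ : GaussianInt).norm : ℝ) ≤ 9 * (Q : ℝ) ^ 2 := by
        rw [Zsqrtd.norm_def]
        push_cast
        have e6 : (q.num : ℝ) * q.num ≤ (2 * Q) * (2 * Q) := by
          rw [← abs_mul_abs_self]
          exact mul_le_mul hnum hnum (abs_nonneg _) (by positivity)
        have e7 : (q.den : ℝ) * q.den ≤ Q * Q := by gcongr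
        nlinarith
      exact_mod_cast this
  · have hb : b ≠ 0 := by
      rintro rfl
      simp at h
      exact absurd h (not_lt.2 (abs_nonneg a))
    obtain ⟨q, hq1, hq2⟩ := Real.exists_rat_abs_sub_le_and_den_le (a / b) (n := Q) hQ
    have hdpos : (0 : ℝ) < q.den := by exact_mod_cast q.den_pos
    have hqeq : (q : ℝ) = q.num / q.den := Rat.cast_def q
    have hξ : |a / b| ≤ 1 := by
      rw [abs_div, div_le_one (abs_pos.2 hb)]; exact h.le
    have hb1 : |b| ≤ 1 := by
      rw [← sq_le_one_iff_abs_le_one]; nlinarith [sq_nonneg a]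
    have hq1' : |a / b - q| * q.den ≤ 1 / (Q + 1) := by
      calc |a / b - q| * q.den ≤ 1 / ((Q + 1) * q.den) * q.den := by gcongr
        _ = 1 / (Q + 1) := by field_simp
    refine ⟨⟨q.num, q.den⟩, ?_, ?_, ?_, ?_⟩
    · have := q.reduced
      rw [Int.isCoprime_iff_nat_coprime]
      simpa using this
    · intro h0
      have := congrArg Zsqrtd.im h0
      simp at this
    · have e1 : ((q.den : ℝ)) * a - (q.num : ℝ) * b = (b * ((a / b - q) * q.den)) := by
        rw [hqeq]; field_simp
      simp only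
      push_cast
      rw [e1, abs_mul, abs_mul, abs_of_pos hdpos]
      calc |b| * (|a / b - q| * q.den) ≤ 1 * (1 / (Q + 1)) := by gcongr
        _ ≤ 1 / Q := by
          rw [one_mul]
          exact one_div_le_one_div_of_le hQ0 (by linarith)
    · have hden : (q.den : ℝ) ≤ Q := by exact_mod_cast hq2
      have hnum : |(q.num : ℝ)| ≤ 2 * Q := by
        have e2 : (q.num : ℝ) = (a / b) * q.den - (a / b - q) * q.den := by
          rw [hqeq]; field_simp; ring
        rw [e2]
        refine (abs_sub _ _).trans ?_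
        rw [abs_mul, abs_mul, abs_of_pos hdpos]
        have e3 : |a / b| * q.den ≤ 1 * Q := by gcongr
        have e4 : 1 / ((Q : ℝ) + 1) ≤ 1 := by
          rw [div_le_one (by linarith)]; linarith
        have e5 : (1 : ℝ) ≤ Q := by exact_mod_cast hQ
        linarith
      have : ((⟨q.num, q.den⟩ : GaussianInt).norm : ℝ) ≤ 9 * (Q : ℝ) ^ 2 := by
        rw [Zsqrtd.norm_def]
        push_cast
        have e6 : (q.num : ℝ) * q.num ≤ (2 * Q) * (2 * Q) := by
          rw [← abs_mul_abs_self]
          exact mul_le_mul hnum hnum (abs_nonneg _) (by positivity)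
        have e7 : (q.den : ℝ) * q.den ≤ Q * Q := by gcongr
        nlinarith
      exact_mod_cast this

end Vale.Agent.P015
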