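import Mathlib.Tactic
import Vale.Agent.P015.Tube

namespace Vale.Agent.P015

open Finset Classical ComplexConjugate

lemma exists_layer {D : ℝ} {N : ℕ} (hD : D ≤ N) (a b : ℝ) (hab : a ^ 2 + b ^ 2 = 1)
    {z w : {z : GaussianInt // Irreducible z}} (p : (moatGraph D).Walk z w) (τ : ℝ)
    (h1 : (z.1.re : ℝ) * a + z.1.im * b < τ) (h2 : τ ≤ (w.1.re : ℝ) * a + w.1.im * b) :
    ∃ x ∈ p.support, τ ≤ (x.1.re : ℝ) * a + x.1.im * b ∧
      (x.1.re : ℝ) * a + x.1.im * b < τ + N := by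
  obtain ⟨d, hd, hd1, hd2⟩ := p.exists_boundary_dart
    {x | (x.1.re : ℝ) * a + x.1.im * b < τ} h1 (by simpa using h2)
  refine ⟨d.snd, p.dart_snd_mem_support_of_mem_darts hd, ?_, ?_⟩
  · simpa using hd2
  · have hd1' : (d.fst.1.re : ℝ) * a + d.fst.1.im * b < τ := hd1
    have h3 : ‖(d.fst.1 : ℂ) - (d.snd.1 : ℂ)‖ ≤ N := d.adj.2.trans hD
    have h4 : ((d.snd.1.re : ℝ) - d.fst.1.re) * a + ((d.snd.1.im : ℝ) - d.fst.1.im) * b ≤ N := by
      have h5 : ‖(d.fst.1 : ℂ) - (d.snd.1 : ℂ)‖ ^ 2 =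
          ((d.snd.1.re : ℝ) - d.fst.1.re) ^ 2 + ((d.snd.1.im : ℝ) - d.fst.1.im) ^ 2 := by
        rw [← Complex.normSq_eq_norm_sq, Complex.normSq_apply]
        simp
        ring
      have h6 : (0 : ℝ) ≤ N := by positivity
      have h7 : ((d.snd.1.re : ℝ) - d.fst.1.re) ^ 2 + ((d.snd.1.im : ℝ) - d.fst.1.im) ^ 2 ≤
          (N : ℝ) ^ 2 := by
        rw [← h5]; gcongr
      refine le_of_sq_le_sq ?_ h6
      nlinarith [sq_nonneg (((d.snd.1.re : ℝ) - d.fst.1.re) * b -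
        ((d.snd.1.im : ℝ) - d.fst.1.im) * a)]
    linarith

/-- numerical contradiction -/
lemma numeric_contra (N C k Q h n J c1 c2 : ℕ) (hN : 1 ≤ N) (hk : 2 ≤ k) (hQ : Q = k ^ (C * k))
    (hh : h = 2 ^ k) (hhN : 62 * N ≤ h) (hn : 1 ≤ n) (hJ : J = Q * h * n / N)
    (hc : J = c1 + c2) (hc1 : c1 ≤ (2 * k ^ C + 1) ^ 2)
    (hc2 : (c2 : ℝ) ≤ (2 * ((6 * h * n : ℕ) : ℝ) + 1) * (((4 * Q * h : ℕ) : ℝ) *
      Real.exp (-(2 * k)))) : False := by
  have hQ1 : 1 ≤ Q := by rw [hQ]; exact Nat.one_le_pow _ _ (by omega)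
  have hNr : (1 : ℝ) ≤ N := by exact_mod_cast hN
  have hQr : (1 : ℝ) ≤ Q := by exact_mod_cast hQ1
  have hnr : (1 : ℝ) ≤ n := by exact_mod_cast hn
  have hh1 : (1 : ℝ) ≤ h := by
    have : 1 ≤ h := by omega
    exact_mod_cast this
  have hhNr : (62 : ℝ) * N ≤ h := by exact_mod_cast hhN
  -- J bigger than
  have hJ1 : (Q : ℝ) * h * n < N * (J + 1) := by
    have h1 : Q * h * n < N * (J + 1) := by
      rw [hJ]
      have := Nat.lt_mul_div_succ (Q * h * n) (show 0 < N by omega)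
      exact this
    exact_mod_cast h1
  have hexp : (h : ℝ) * Real.exp (-(2 * k)) * h ≤ 1 := by
    have e1 : Real.exp (-(2 * k)) = (Real.exp (-2)) ^ k := by
      rw [← Real.exp_nat_mul]; ring_nf
    have e2 : (h : ℝ) = 2 ^ k := by rw [hh]; push_cast; ring
    rw [e1, e2, ← mul_pow, ← mul_pow]
    refine pow_le_one₀ (by positivity) ?_
    rw [Real.exp_neg]
    have h5 : Real.exp 2 = (Real.exp 1) ^ 2 := by rw [← Real.exp_nat_mul]; norm_num
    have h6 := Real.exp_one_gt_d9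
    have h7 : (4 : ℝ) ≤ Real.exp 2 := by rw [h5]; nlinarith
    have h8 : (Real.exp 2)⁻¹ ≤ 1 / 4 := by
      rw [one_div]; exact inv_anti₀ (by norm_num) h7
    linarith
  have hc2' : (c2 : ℝ) ≤ 52 * Q * n := by
    push_cast at hc2
    have e0 : 0 < Real.exp (-(2 * (k : ℝ))) := Real.exp_pos _
    calc (c2 : ℝ) ≤ (2 * (6 * h * n) + 1) * (4 * Q * h * Real.exp (-(2 * k))) := hc2
      _ ≤ (13 * h * n) * (4 * Q * h * Real.exp (-(2 * k))) := by
          gcongr
          nlinarith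
      _ = 52 * Q * n * (h * Real.exp (-(2 * k)) * h) := by ring
      _ ≤ 52 * Q * n * 1 := by gcongr
      _ = 52 * Q * n := by ring
  have hc1' : (c1 : ℝ) + 1 ≤ 10 * Q := by
    have h1 : (c1 : ℝ) ≤ (2 * (k : ℝ) ^ C + 1) ^ 2 := by exact_mod_cast hc1
    have h2 : (1 : ℝ) ≤ (k : ℝ) ^ C := one_le_pow₀ (by
      have : 1 ≤ k := by omega
      exact_mod_cast this)
    have h3 : ((k : ℝ) ^ C) ^ 2 ≤ Q := by
      have : (k ^ C) ^ 2 ≤ Q := by
        rw [hQ, ← pow_mul]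
        exact Nat.pow_le_pow_right (by omega) (Nat.mul_le_mul_left _ hk)
      exact_mod_cast this
    nlinarith
  have hJr : (J : ℝ) = c1 + c2 := by rw [hc]; push_cast; ring
  have hJ2 : (J : ℝ) + 1 ≤ 10 * Q * n + 52 * Q * n := by
    rw [hJr]
    have : (10 : ℝ) * Q ≤ 10 * Q * n := by nlinarith
    linarith
  have : (Q : ℝ) * h * n < N * (10 * Q * n + 52 * Q * n) :=
    hJ1.trans_le (mul_le_mul_of_nonneg_left hJ2 (by positivity))
  have h9 : (Q : ℝ) * n * h < Q * n * (62 * N) := by linarith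
  have h10 := lt_of_mul_lt_mul_left h9 (by positivity)
  linarith

set_option maxHeartbeats 2000000 in
lemma tube_aux (N C k Q h : ℕ) (hN : 1 ≤ N) (hk : 2 ≤ k) (hC : 1 ≤ C) (hQ : Q = k ^ (C * k))
    (hh : h = 2 ^ k) (hhN : 62 * N ≤ h) (hQ2 : 9 * Q ^ 2 ≤ 2 ^ (k ^ 2)) (hrow : RowProp N C k)
    (D : ℝ) (hD : D ≤ N) (a b : ℝ) (hab : a ^ 2 + b ^ 2 = 1)
    {z w : {z : GaussianInt // Irreducible z}} (p : (moatGraph D).Walk z w)
    (hp : ∀ x ∈ p.support, ∀ y ∈ p.support,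
      |((x.1.im : ℝ) - y.1.im) * a - ((x.1.re : ℝ) - y.1.re) * b| ≤ 2 * h)
    (hs : (z.1.re : ℝ) * a + z.1.im * b + (3 * Q ^ 2 * h + 2 * N) ≤
      (w.1.re : ℝ) * a + w.1.im * b) : False := by
  have hk1 : 1 ≤ k := by omega
  have hQ1 : 1 ≤ Q := by rw [hQ]; exact Nat.one_le_pow _ _ (by omega)
  have hQr : (1 : ℝ) ≤ Q := by exact_mod_cast hQ1
  have hh1 : 1 ≤ h := by omega
  have hhr : (1 : ℝ) ≤ h := by exact_mod_cast hh1
  have hNr : (1 : ℝ) ≤ N := by exact_mod_cast hN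
  obtain ⟨v, hvc, hv0, hv2, hvn⟩ := dirichlet_dir a b hab Q hQ1
  have hvpos := norm_pos' hv0
  obtain ⟨n, hn⟩ : ∃ n : ℕ, n = Nat.sqrt v.norm.natAbs := ⟨_, rfl⟩
  have hn1 : 1 ≤ n := by
    rw [hn, Nat.one_le_iff_ne_zero, Ne, Nat.sqrt_eq_zero]
    omega
  have hnv : ((n : ℕ) : ℤ) ^ 2 ≤ v.norm := by
    have h1 : n * n ≤ v.norm.natAbs := by rw [hn]; exact Nat.sqrt_le _
    have h2 : ((n * n : ℕ) : ℤ) ≤ (v.norm.natAbs : ℤ) := by exact_mod_cast h1
    rw [Int.natAbs_of_nonneg hvpos.le] at h2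
    push_cast at h2
    linarith [sq (n : ℤ)]
  have hvn' : v.norm ≤ (2 * n : ℤ) ^ 2 := by
    have h1 : v.norm.natAbs < (n + 1) * (n + 1) := by
      rw [hn]; exact Nat.lt_succ_sqrt v.norm.natAbs
    have h2 : (v.norm.natAbs : ℤ) < ((n + 1) * (n + 1) : ℕ) := by exact_mod_cast h1
    rw [Int.natAbs_of_nonneg hvpos.le] at h2
    push_cast at h2
    have h3 : (1 : ℤ) ≤ n := by exact_mod_cast hn1
    nlinarith
  -- real norms of v
  obtain ⟨ν, hν⟩ : ∃ ν : ℝ, ν = Real.sqrt (v.norm : ℝ) := ⟨_, rfl⟩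
  have hvposr : (0 : ℝ) < (v.norm : ℝ) := by exact_mod_cast hvpos
  have hνsq : ν ^ 2 = (v.norm : ℝ) := by rw [hν]; exact Real.sq_sqrt hvposr.le
  have hν0 : 0 ≤ ν := by rw [hν]; exact Real.sqrt_nonneg _
  have hnν : (n : ℝ) ≤ ν := by
    refine le_of_sq_le_sq ?_ hν0
    rw [hνsq]; exact_mod_cast hnv
  have hν2n : ν ≤ 2 * n := by
    refine le_of_sq_le_sq ?_ (by positivity)
    rw [hνsq]; exact_mod_cast hvn'
  have hν3Q : ν ≤ 3 * Q := by
    refine le_of_sq_le_sq ?_ (by positivity)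
    rw [hνsq]
    have : (v.norm : ℝ) ≤ 9 * (Q : ℝ) ^ 2 := by exact_mod_cast hvn
    linarith
  have hn1r : (1 : ℝ) ≤ n := by exact_mod_cast hn1
  obtain ⟨v1, hv1⟩ : ∃ v1 : ℝ, v1 = (v.re : ℝ) * a + v.im * b := ⟨_, rfl⟩
  obtain ⟨v2, hv2'⟩ : ∃ v2 : ℝ, v2 = (v.im : ℝ) * a - v.re * b := ⟨_, rfl⟩
  rw [← hv2'] at hv2
  have hv12 : v1 ^ 2 + v2 ^ 2 = ν ^ 2 := by
    rw [hνsq, Zsqrtd.norm_def, hv1, hv2']
    push_cast
    linear_combination ((v.re : ℝ) ^ 2 + (v.im : ℝ) ^ 2) * hab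
  have hv1ν : |v1| ≤ ν := by
    refine abs_le_of_sq_le_sq ?_ hν0
    nlinarith [sq_nonneg v2]
  have hv2ν : |v2| ≤ ν := by
    refine abs_le_of_sq_le_sq ?_ hν0
    nlinarith [sq_nonneg v1]
  obtain ⟨J, hJ⟩ : ∃ J : ℕ, J = Q * h * n / N := ⟨_, rfl⟩
  have hJN : J * N ≤ Q * h * n := by rw [hJ]; exact Nat.div_mul_le_self _ _
  have hJNr : (J : ℝ) * N ≤ Q * h * n := by exact_mod_cast hJN
  have hJk : k ≤ J := by
    rw [hJ, Nat.le_div_iff_mul_le (by omega)]
    have h1 : k ≤ Q := by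
      rw [hQ]; exact Nat.le_self_pow (by positivity) k
    calc k * N ≤ Q * N := Nat.mul_le_mul_right _ h1
      _ ≤ Q * h := Nat.mul_le_mul_left _ (by omega)
      _ ≤ Q * h * n := Nat.le_mul_of_pos_right _ hn1
  -- choose the layers
  have hlay : ∀ j ∈ Finset.Icc 1 J, ∃ x ∈ p.support,
      ((z.1.re : ℝ) * a + z.1.im * b) + j * N ≤ (x.1.re : ℝ) * a + x.1.im * b ∧
      (x.1.re : ℝ) * a + x.1.im * b < ((z.1.re : ℝ) * a + z.1.im * b) + j * N + N := by
    intro j hj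
    rw [Finset.mem_Icc] at hj
    have hj1 : (1 : ℝ) ≤ j := by exact_mod_cast hj.1
    have hj2 : (j : ℝ) ≤ J := by exact_mod_cast hj.2
    refine exists_layer hD a b hab p _ ?_ ?_
    · have : 0 < (j : ℝ) * N := by positivity
      linarith
    · refine le_trans ?_ hs
      have : (j : ℝ) * N ≤ 3 * Q ^ 2 * h := by
        calc (j : ℝ) * N ≤ J * N := by gcongr
          _ ≤ Q * h * n := hJNr
          _ ≤ Q * h * (3 * Q) := by gcongr; linarith
          _ = 3 * Q ^ 2 * h := by ring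
      linarith
  have : Nonempty {z : GaussianInt // Irreducible z} := ⟨z⟩
  choose! x hx1 hx2 hx3 using hlay
  have hmono : ∀ i ∈ Finset.Icc 1 J, ∀ j ∈ Finset.Icc 1 J, i < j →
      ((x i).1.re : ℝ) * a + (x i).1.im * b < ((x j).1.re : ℝ) * a + (x j).1.im * b := by
    intro i hi j hj hij
    have h1 := hx3 i hi
    have h2 := hx2 j hj
    have h3 : ((i : ℝ) + 1) * N ≤ j * N := by
      have : (i : ℝ) + 1 ≤ j := by exact_mod_cast hij
      gcongr
    linarith
  have hinj : Set.InjOn x (Finset.Icc 1 J : Finset ℕ) := by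
    intro i hi j hj hij
    rcases lt_trichotomy i j with h' | h' | h'
    · have := hmono i hi j hj h'
      rw [hij] at this
      exact absurd this (lt_irrefl _)
    · exact h'
    · have := hmono j hj i hi h'
      rw [hij] at this
      exact absurd this (lt_irrefl _)
  obtain ⟨V, hV⟩ : ∃ V : Finset {z : GaussianInt // Irreducible z},
      V = (Finset.Icc 1 J).image x := ⟨_, rfl⟩
  have hVcard : V.card = J := by
    rw [hV, Finset.card_image_of_injOn hinj]; simp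
  have hVsup : ∀ u ∈ V, u ∈ p.support := by
    intro u hu
    rw [hV, mem_image] at hu
    obtain ⟨j, hj, rfl⟩ := hu
    exact hx1 j hj
  have hVs : ∀ u ∈ V, ∀ u' ∈ V,
      ((u.1.re : ℝ) * a + u.1.im * b) - ((u'.1.re : ℝ) * a + u'.1.im * b) ≤ J * N := by
    intro u hu u' hu'
    rw [hV, mem_image] at hu hu'
    obtain ⟨j, hj, rfl⟩ := hu
    obtain ⟨i, hi, rfl⟩ := hu'
    have h1 := hx3 j hj
    have h2 := hx2 i hi
    rw [Finset.mem_Icc] at hi hj
    have h3 : (j : ℝ) * N ≤ J * N := by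
      have : (j : ℝ) ≤ J := by exact_mod_cast hj.2
      gcongr
    have h4 : (1 : ℝ) * N ≤ i * N := by
      have : (1 : ℝ) ≤ i := by exact_mod_cast hi.1
      gcongr
    linarith
  -- component sizes
  have hcomp : ∀ u ∈ p.support, (moatGraph D).connectedComponentMk u =
      (moatGraph D).connectedComponentMk z := by
    intro u hu
    rw [SimpleGraph.ConnectedComponent.eq]
    exact ⟨(p.takeUntil u hu).reverse⟩
  have hbig : (k : ℕ∞) ≤ ((moatGraph D).connectedComponentMk z).supp.encard := by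
    have h1 : (V : Set _) ⊆ ((moatGraph D).connectedComponentMk z).supp := by
      intro u hu
      rw [SimpleGraph.ConnectedComponent.mem_supp_iff]
      exact hcomp u (hVsup u hu)
    have h2 := Set.encard_le_encard h1
    rw [Set.encard_coe_eq_coe_finsetCard, hVcard] at h2
    exact le_trans (by exact_mod_cast hJk) h2
  -- Gaussian integer set
  obtain ⟨S, hS⟩ : ∃ S : Finset GaussianInt, S = V.image Subtype.val := ⟨_, rfl⟩
  have hScard : S.card = J := by
    rw [hS, Finset.card_image_of_injective _ Subtype.val_injective, hVcard]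
  have hsplit : (S.filter (fun u ↦ (k : ℤ) ^ C ≤ u.norm)).card +
      (S.filter (fun u ↦ ¬ ((k : ℤ) ^ C ≤ u.norm))).card = S.card :=
    Finset.card_filter_add_card_filter_not _
  have hc1 : (S.filter (fun u ↦ ¬ ((k : ℤ) ^ C ≤ u.norm))).card ≤ (2 * k ^ C + 1) ^ 2 :=
    small_card k C hk1 _ (fun u hu ↦ not_le.1 (mem_filter.1 hu).2)
  have hdx : ∀ u ∈ S, ∀ u' ∈ S,
      |((u.re : ℝ) - u'.re) * a + ((u.im : ℝ) - u'.im) * b| ≤ J * N ∧
      |((u.im : ℝ) - u'.im) * a - ((u.re : ℝ) - u'.re) * b| ≤ 2 * h := by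
    intro u hu u' hu'
    rw [hS, mem_image] at hu hu'
    obtain ⟨u, hu, rfl⟩ := hu
    obtain ⟨u', hu', rfl⟩ := hu'
    refine ⟨?_, hp u (hVsup u hu) u' (hVsup u' hu')⟩
    rw [abs_le]
    have h1 := hVs u hu u' hu'
    have h2 := hVs u' hu' u hu
    constructor <;> linarith
  have hc2 := tube_count N C k (4 * Q * h) (6 * h * n) hrow D hD v hvc hv0 (by
      refine hvn.trans ?_
      exact_mod_cast hQ2) (by
      rw [← hQ]
      calc Q ≤ 4 * Q := by omega
        _ ≤ 4 * Q * h := Nat.le_mul_of_pos_right _ hh1)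
    (S.filter (fun u ↦ (k : ℤ) ^ C ≤ u.norm)) (by
      intro u hu
      rw [mem_filter] at hu
      refine ⟨hu.2, ?_⟩
      have hu1 := hu.1
      rw [hS, mem_image] at hu1
      obtain ⟨u', hu', rfl⟩ := hu1
      refine ⟨u'.2, ?_⟩
      have : (moatGraph D).connectedComponentMk ⟨u'.1, u'.2⟩ =
          (moatGraph D).connectedComponentMk z := hcomp u' (hVsup u' hu')
      rw [this]
      exact hbig) (by
      intro u hu u' hu'
      rw [mem_filter] at hu hu'
      obtain ⟨d1, d2⟩ := hdx u hu.1 u' hu'.1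
      have e1 : ((XX (u - u') v : ℤ) : ℝ) =
          (((u.re : ℝ) - u'.re) * a + ((u.im : ℝ) - u'.im) * b) * v1 +
          (((u.im : ℝ) - u'.im) * a - ((u.re : ℝ) - u'.re) * b) * v2 := by
        unfold XX
        simp only [Zsqrtd.re_sub, Zsqrtd.im_sub]
        rw [hv1, hv2']
        push_cast
        linear_combination (-(((u.re : ℝ) - u'.re) * v.re + ((u.im : ℝ) - u'.im) * v.im)) * hab
      have e2 : ((XX (u - u') v : ℤ) : ℝ) < ((((4 * Q * h : ℕ) : ℤ) * v.norm : ℤ) : ℝ) := by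
        rw [e1]
        have f1 : (((u.re : ℝ) - u'.re) * a + ((u.im : ℝ) - u'.im) * b) * v1 ≤ (J * N) * ν := by
          refine (le_abs_self _).trans ?_
          rw [abs_mul]; gcongr
        have f2 : (((u.im : ℝ) - u'.im) * a - ((u.re : ℝ) - u'.re) * b) * v2 ≤ (2 * h) * ν := by
          refine (le_abs_self _).trans ?_
          rw [abs_mul]; gcongr
        have f3 : (J : ℝ) * N ≤ Q * h * ν := by
          calc (J : ℝ) * N ≤ Q * h * n := hJNr
            _ ≤ Q * h * ν := by gcongr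
        have f4 : (2 * h : ℝ) ≤ 2 * (Q * h * ν) := by
          have : (1 : ℝ) ≤ Q * ν := by
            have : (1 : ℝ) ≤ ν := hn1r.trans hnν
            nlinarith
          nlinarith
        have hνpos : 0 < ν := by linarith
        push_cast
        rw [← hνsq]
        calc _ ≤ (J * N) * ν + (2 * h) * ν := by linarith
          _ ≤ (Q * h * ν) * ν + 2 * (Q * h * ν) * ν := by gcongr
          _ = 3 * Q * h * ν ^ 2 := by ring
          _ < 4 * Q * h * ν ^ 2 := by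
              have : 0 < (Q : ℝ) * h * ν ^ 2 := by positivity
              linarith
      exact_mod_cast e2) (by
      intro u hu u' hu'
      rw [mem_filter] at hu hu'
      obtain ⟨d1, d2⟩ := hdx u hu.1 u' hu'.1
      have e1 : ((YY (u - u') v : ℤ) : ℝ) =
          (((u.im : ℝ) - u'.im) * a - ((u.re : ℝ) - u'.re) * b) * v1 -
          (((u.re : ℝ) - u'.re) * a + ((u.im : ℝ) - u'.im) * b) * v2 := by
        unfold YY
        simp only [Zsqrtd.re_sub, Zsqrtd.im_sub]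
        rw [hv1, hv2']
        push_cast
        linear_combination (-(((u.im : ℝ) - u'.im) * v.re - ((u.re : ℝ) - u'.re) * v.im)) * hab
      have e2 : |((YY (u - u') v : ℤ) : ℝ)| ≤ ((6 * h * n : ℕ) : ℝ) := by
        rw [e1]
        refine (abs_sub _ _).trans ?_
        rw [abs_mul, abs_mul]
        have f1 : |((u.im : ℝ) - u'.im) * a - ((u.re : ℝ) - u'.re) * b| * |v1| ≤ (2 * h) * ν := by
          gcongr
        have f2 : |((u.re : ℝ) - u'.re) * a + ((u.im : ℝ) - u'.im) * b| * |v2| ≤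
            (Q * h * n) * (1 / Q) := by
          gcongr
          exact d1.trans hJNr
        have f3 : (Q * h * n : ℝ) * (1 / Q) = h * n := by field_simp
        rw [f3] at f2
        push_cast
        nlinarith
      exact_mod_cast e2)
  exact numeric_contra N C k Q h n J _ _ hN hk hQ hh hhN hn1 hJ
    (by rw [← hScard, ← hsplit, add_comm]) hc1 hc2

end Vale.Agent.P015
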