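import Mathlib.Tactic
import Mathlib.Analysis.SpecialFunctions.Log.Deriv
import Mathlib.Analysis.SpecialFunctions.Pow.Asymptotics
import Vale.Agent.P015.TubeMain

namespace Vale.Agent.P015

open Finset Classical ComplexConjugate Filter

lemma tendsto_div_log : Tendsto (fun y : ℝ ↦ y / Real.log y) atTop atTop := by
  have h : Tendsto (fun y : ℝ ↦ Real.sqrt y / 2) atTop atTop :=
    Real.tendsto_sqrt_atTop.atTop_div_const (by norm_num)
  refine tendsto_atTop_mono' atTop ?_ h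
  filter_upwards [eventually_gt_atTop (1 : ℝ)] with y hy
  have hlog : 0 < Real.log y := Real.log_pos hy
  have h1 : Real.log y ≤ 2 * Real.sqrt y := by
    have h2 := Real.log_le_sub_one_of_pos (Real.sqrt_pos.2 (by linarith : (0:ℝ) < y))
    rw [Real.log_sqrt (by linarith)] at h2
    linarith
  rw [le_div_iff₀ hlog]
  have h3 : Real.sqrt y * Real.sqrt y = y := Real.mul_self_sqrt (by linarith)
  have h4 := Real.sqrt_nonneg y
  nlinarith

lemma tendsto_loglog : Tendsto (fun L : ℝ ↦ Real.log L / Real.log (Real.log L)) atTop atTop :=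
  tendsto_div_log.comp Real.tendsto_log_atTop

lemma param_k (c : ℝ) (hc : 0 < c) (hc1 : c ≤ 1) (C' : ℕ) (hcC : c * C' ≤ 1) (k1 : ℕ) :
    ∃ L₀ : ℝ, 1 ≤ L₀ ∧ ∀ L ≥ L₀, Real.exp 1 ≤ Real.log L ∧ ∃ k : ℕ, k1 ≤ k ∧
      (k : ℝ) ≤ c * Real.log L / Real.log (Real.log L) ∧
      c * Real.log L / Real.log (Real.log L) < k + 1 ∧ (k : ℝ) ^ (C' * k) ≤ L := by
  have h1 : ∀ᶠ L : ℝ in atTop, ((k1 : ℝ) + 1) / c ≤ Real.log L / Real.log (Real.log L) :=
    tendsto_loglog.eventually_ge_atTop _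
  have h2 : ∀ᶠ L : ℝ in atTop, Real.exp 1 ≤ Real.log L :=
    Real.tendsto_log_atTop.eventually_ge_atTop _
  obtain ⟨L₀, hL₀⟩ := eventually_atTop.1 (h1.and (h2.and (eventually_ge_atTop (1 : ℝ))))
  refine ⟨max 1 L₀, le_max_left _ _, fun L hL ↦ ?_⟩
  obtain ⟨h3, h4, h5⟩ := hL₀ L ((le_max_right _ _).trans hL)
  refine ⟨h4, ⌊c * Real.log L / Real.log (Real.log L)⌋₊, ?_, ?_, ?_, ?_⟩
  · refine Nat.le_floor ?_
    rw [div_le_iff₀ hc] at h3
    rw [mul_div_assoc]
    linarith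
  · refine Nat.floor_le ?_
    have : 0 < Real.log L := (Real.exp_pos 1).trans_le h4
    have h6 : 0 ≤ Real.log (Real.log L) := Real.log_nonneg (by
      have := Real.add_one_le_exp (1 : ℝ)
      linarith)
    positivity
  · exact Nat.lt_floor_add_one _
  · have hlogpos : 0 < Real.log L := (Real.exp_pos 1).trans_le h4
    have hll : 1 ≤ Real.log (Real.log L) := by
      rw [Real.le_log_iff_exp_le hlogpos]; exact h4
    have hk : ((⌊c * Real.log L / Real.log (Real.log L)⌋₊ : ℕ) : ℝ) ≤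
        c * Real.log L / Real.log (Real.log L) := Nat.floor_le (by positivity)
    obtain ⟨k, hkdef⟩ : ∃ k : ℕ, k = ⌊c * Real.log L / Real.log (Real.log L)⌋₊ := ⟨_, rfl⟩
    rw [← hkdef] at hk ⊢
    rcases Nat.eq_zero_or_pos k with h0 | hkpos
    · rw [h0]; simpa using h5
    · have hkr : (0 : ℝ) < k := by exact_mod_cast hkpos
      have hkl : (k : ℝ) ≤ Real.log L := by
        refine hk.trans ?_
        rw [div_le_iff₀ (by linarith)]
        nlinarith
      have hlogk : Real.log k ≤ Real.log (Real.log L) := Real.log_le_log hkr hkl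
      have h7 : (k : ℝ) ^ (C' * k) = Real.exp (C' * k * Real.log k) := by
        rw [← Real.rpow_natCast, Real.rpow_def_of_pos hkr]
        push_cast; ring_nf
      rw [h7]
      have h8 : (C' : ℝ) * k * Real.log k ≤ Real.log L := by
        calc (C' : ℝ) * k * Real.log k ≤ C' * k * Real.log (Real.log L) := by gcongr
          _ ≤ C' * (c * Real.log L / Real.log (Real.log L)) * Real.log (Real.log L) := by gcongr
          _ = (c * C') * Real.log L := by field_simp
          _ ≤ 1 * Real.log L := by gcongr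
          _ = Real.log L := one_mul _
      calc Real.exp (C' * k * Real.log k) ≤ Real.exp (Real.log L) := Real.exp_le_exp.2 h8
        _ = L := Real.exp_log (by linarith)

lemma finite_norm_le (B : ℝ) : {z : GaussianInt | ‖(z : ℂ)‖ ≤ B}.Finite := by
  refine (box ⌈B⌉₊).finite_toSet.subset ?_
  intro z hz
  have hz' : ‖(z : ℂ)‖ ≤ B := hz
  rw [Finset.mem_coe, mem_box]
  have h1 := (abs_re_le_norm z).trans (hz'.trans (Nat.le_ceil B))
  have h2 := (abs_im_le_norm z).trans (hz'.trans (Nat.le_ceil B))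
  exact ⟨by exact_mod_cast h1, by exact_mod_cast h2⟩

lemma finite_disc (a : ℂ) (R : ℝ) :
    {z : {z : GaussianInt // Irreducible z} | ‖(z.1 : ℂ) - a‖ ≤ R}.Finite := by
  have h1 := finite_norm_le (R + ‖a‖)
  refine Set.Finite.subset (h1.preimage (Subtype.val_injective.injOn)) ?_
  intro z hz
  have hz' : ‖(z.1 : ℂ) - a‖ ≤ R := hz
  change ‖(z.1 : ℂ)‖ ≤ R + ‖a‖
  calc ‖(z.1 : ℂ)‖ = ‖((z.1 : ℂ) - a) + a‖ := by ring_nf
    _ ≤ ‖(z.1 : ℂ) - a‖ + ‖a‖ := norm_add_le _ _
    _ ≤ R + ‖a‖ := by linarith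

lemma growth (C N : ℕ) : ∃ k1 : ℕ, ∀ k ≥ k1, 9 * (k ^ (C * k)) ^ 2 ≤ 2 ^ (k ^ 2) ∧
    62 * N ≤ 2 ^ k := by
  have h1 : ∀ᶠ k : ℕ in atTop, (2 * C + 1) * (k.log2 + 1) + 4 ≤ k := by
    have h2 : Tendsto (fun x : ℝ ↦ Real.log x / x) atTop (nhds 0) := by
      have := Real.isLittleO_log_id_atTop.tendsto_div_nhds_zero
      simpa using this
    have h3 := h2.comp (tendsto_natCast_atTop_atTop (R := ℝ))
    have h4 : ∀ᶠ k : ℕ in atTop, Real.log (k : ℝ) / k < 1 / (4 * (2 * C + 1)) :=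
      (tendsto_order.1 h3).2 _ (by positivity)
    filter_upwards [h4, eventually_ge_atTop (4 * (2 * C + 5)), eventually_gt_atTop 0]
      with k hk hk2 hk0
    have hkr : (0 : ℝ) < k := by exact_mod_cast hk0
    have h5 : (k.log2 : ℝ) ≤ Real.log k / Real.log 2 := by
      rw [le_div_iff₀ (Real.log_pos (by norm_num))]
      have h6 : 2 ^ k.log2 ≤ k := Nat.log2_self_le (by omega)
      have h7 : ((2 : ℝ)) ^ k.log2 ≤ k := by exact_mod_cast h6
      have h8 := Real.log_le_log (by positivity) h7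
      rw [Real.log_pow] at h8
      exact h8
    have hl2 := Real.log_two_gt_d9
    have h9 : (k.log2 : ℝ) ≤ 2 * Real.log k := by
      refine h5.trans ?_
      rw [div_le_iff₀ (by linarith)]
      have : 0 ≤ Real.log k := Real.log_natCast_nonneg k
      nlinarith
    rw [div_lt_div_iff₀ hkr (by positivity)] at hk
    have h10 : ((2 * C + 1 : ℕ) : ℝ) * (k.log2 + 1) + 4 ≤ k := by
      push_cast
      have h11 : (4 * (2 * (C : ℝ) + 5)) ≤ k := by exact_mod_cast hk2
      nlinarith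
    exact_mod_cast h10
  obtain ⟨k1, hk1⟩ := eventually_atTop.1 h1
  refine ⟨k1 + 62 * N + 4, fun k hk ↦ ⟨?_, ?_⟩⟩
  · have h2 := hk1 k (by omega)
    have h3 : k ≤ 2 ^ (k.log2 + 1) := Nat.lt_log2_self.le
    calc 9 * (k ^ (C * k)) ^ 2 ≤ 2 ^ 4 * ((2 ^ (k.log2 + 1)) ^ (C * k)) ^ 2 := by
          gcongr
          norm_num
      _ = 2 ^ (4 + (k.log2 + 1) * (C * k) * 2) := by
          rw [← pow_mul, ← pow_mul, ← pow_add]
          ring_nf
      _ ≤ 2 ^ (k ^ 2) := by
          refine Nat.pow_le_pow_right (by norm_num) ?_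
          have h4 : k * ((2 * C + 1) * (k.log2 + 1) + 4) ≤ k * k := Nat.mul_le_mul_left _ h2
          nlinarith
  · calc 62 * N ≤ k := by omega
      _ ≤ 2 ^ k := Nat.lt_two_pow_self.le

end Vale.Agent.P015
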