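import Mathlib.Tactic
import Vale.Agent.P015.Final

namespace Vale.Agent.P015

open Finset Classical ComplexConjugate Filter

lemma half_width (c x : ℝ) (k : ℕ) (hx : x < k + 1) (hk : 4 ≤ k) (hc : c * 1 ≤ x / 4) :
    Real.exp c ≤ (2 : ℝ) ^ k := by
  have h1 : Real.exp c ≤ Real.exp (k * Real.log 2) := by
    refine Real.exp_le_exp.2 ?_
    have hl2 := Real.log_two_gt_d9
    have hk' : (4 : ℝ) ≤ k := by exact_mod_cast hk
    nlinarith
  calc Real.exp c ≤ Real.exp (k * Real.log 2) := h1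
    _ = (2 : ℝ) ^ k := by
      rw [mul_comm, Real.exp_mul, Real.exp_log (by norm_num), Real.rpow_natCast]

lemma six_le (k : ℕ) (hk : 4 ≤ k) : 6 * (2 : ℝ) ^ k ≤ (k : ℝ) ^ k := by
  have h1 : (4 : ℝ) ≤ k := by exact_mod_cast hk
  calc 6 * (2 : ℝ) ^ k ≤ 2 ^ k * 2 ^ k := by
        have : (6 : ℝ) ≤ 2 ^ k := by
          calc (6 : ℝ) ≤ 2 ^ 4 := by norm_num
            _ ≤ 2 ^ k := pow_le_pow_right₀ (by norm_num) hk
        gcongr
    _ = 4 ^ k := by rw [← mul_pow]; norm_num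
    _ ≤ (k : ℝ) ^ k := by gcongr

theorem part_tube (N : ℕ) (hN : 1 ≤ N) (C k0 : ℕ) (hC : 1 ≤ C)
    (hrow : ∀ k ≥ k0, RowProp N C k) (c : ℝ) (hc : 0 < c) (hcC : c * (4 * (2 * C + 1)) ≤ 1) :
    ∃ L₀ : ℝ, 1 ≤ L₀ ∧ ∀ L ≥ L₀, ∀ D : ℝ, D ≤ N → ∀ q e : ℂ, ‖e‖ = 1 →
      ∀ z w : {z : GaussianInt // Irreducible z}, ∀ p : (moatGraph D).Walk z w,
      (∀ x ∈ p.support, |(((x.1 : ℂ) - q) * conj e).im| ≤
        L ^ (c / Real.log (Real.log L))) → ‖(z.1 : ℂ) - w.1‖ < L := by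
  obtain ⟨kg, hkg⟩ := growth C N
  have hC1 : (1 : ℝ) ≤ C := by exact_mod_cast hC
  obtain ⟨L₀, hL₀1, hL₀⟩ := param_k (4 * c) (by positivity) (by nlinarith) (2 * C + 1)
    (by push_cast; linarith) (k0 + kg + 4)
  refine ⟨L₀, hL₀1, fun L hL D hD q e he z w p hp ↦ ?_⟩
  obtain ⟨hlog, k, hk1, hk2, hk3, hk4⟩ := hL₀ L hL
  have hLpos : 0 < L := by linarith
  have hlogpos : 0 < Real.log L := (Real.exp_pos 1).trans_le hlog
  have hll : 1 ≤ Real.log (Real.log L) := by
    rw [Real.le_log_iff_exp_le hlogpos]; exact hlog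
  obtain ⟨hg1, hg2⟩ := hkg k (by omega)
  have hWk : L ^ (c / Real.log (Real.log L)) ≤ (2 : ℝ) ^ k := by
    rw [Real.rpow_def_of_pos hLpos]
    refine half_width _ (4 * c * Real.log L / Real.log (Real.log L)) k hk3 (by omega) ?_
    rw [mul_one]
    refine le_of_eq ?_
    field_simp
  by_contra hcon
  push Not at hcon
  have hab : e.re ^ 2 + e.im ^ 2 = 1 := by
    have := Complex.normSq_eq_norm_sq e
    rw [he, Complex.normSq_apply] at this
    linarith
  have hy : ∀ x ∈ p.support, |((x.1.im : ℝ) - q.im) * e.re - ((x.1.re : ℝ) - q.re) * e.im| ≤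
      (2 : ℝ) ^ k := by
    intro x hx
    have h1 := (hp x hx).trans hWk
    have h2 : (((x.1 : ℂ) - q) * conj e).im =
        ((x.1.im : ℝ) - q.im) * e.re - ((x.1.re : ℝ) - q.re) * e.im := by
      simp [Complex.mul_im]; ring
    rwa [h2] at h1
  have hpair : ∀ x ∈ p.support, ∀ y ∈ p.support,
      |((x.1.im : ℝ) - y.1.im) * e.re - ((x.1.re : ℝ) - y.1.re) * e.im| ≤
        2 * ((2 ^ k : ℕ) : ℝ) := by
    intro x hx y hy'
    have h1 := hy x hx
    have h2 := hy y hy'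
    push_cast
    rw [abs_le] at h1 h2 ⊢
    constructor <;> linarith [h1.1, h1.2, h2.1, h2.2]
  -- displacement along the line
  set Δs : ℝ := ((w.1.re : ℝ) - z.1.re) * e.re + ((w.1.im : ℝ) - z.1.im) * e.im with hΔs
  have hlow : (L - 2 * 2 ^ k) ≤ |Δs| := by
    have h1 := hpair w p.end_mem_support z p.start_mem_support
    set Δy : ℝ := ((w.1.im : ℝ) - z.1.im) * e.re - ((w.1.re : ℝ) - z.1.re) * e.im with hΔy
    have h2 : ‖(z.1 : ℂ) - w.1‖ ^ 2 = Δs ^ 2 + Δy ^ 2 := by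
      rw [← Complex.normSq_eq_norm_sq, Complex.normSq_apply, hΔs, hΔy, Complex.sub_re,
        Complex.sub_im, ← GaussianInt.intCast_re, ← GaussianInt.intCast_re,
        ← GaussianInt.intCast_im, ← GaussianInt.intCast_im]
      linear_combination (-(((w.1.re : ℝ) - z.1.re) ^ 2 + ((w.1.im : ℝ) - z.1.im) ^ 2)) * hab
    have h3 : ‖(z.1 : ℂ) - w.1‖ ≤ |Δs| + |Δy| := by
      refine le_of_sq_le_sq ?_ (by positivity)
      rw [h2]
      nlinarith [abs_nonneg Δs, abs_nonneg Δy, sq_abs Δs, sq_abs Δy,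
        mul_nonneg (abs_nonneg Δs) (abs_nonneg Δy)]
    push_cast at h1
    linarith
  have hbig : (3 * ((k ^ (C * k) : ℕ) : ℝ) ^ 2 * ((2 ^ k : ℕ) : ℝ) + 2 * N) ≤ |Δs| := by
    refine le_trans ?_ hlow
    have h1 : (k : ℝ) ^ ((2 * C + 1) * k) = ((k : ℝ) ^ (C * k)) ^ 2 * (k : ℝ) ^ k := by
      rw [← pow_mul, ← pow_add]; ring_nf
    have h2 := six_le k (by omega)
    have h3 : (62 : ℝ) * N ≤ 2 ^ k := by exact_mod_cast hg2
    have h4 : (1 : ℝ) ≤ ((k : ℝ) ^ (C * k)) ^ 2 := by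
      refine one_le_pow₀ (one_le_pow₀ ?_)
      have : 1 ≤ k := by omega
      exact_mod_cast this
    have h5 : (0 : ℝ) < 2 ^ k := by positivity
    rw [h1] at hk4
    push_cast
    have h6 : ((k : ℝ) ^ (C * k)) ^ 2 * (6 * 2 ^ k) ≤ L := by
      refine le_trans ?_ hk4
      gcongr
    nlinarith
  rcases le_or_gt 0 Δs with hpos | hneg
  · rw [abs_of_nonneg hpos] at hbig
    refine tube_aux N C k (k ^ (C * k)) (2 ^ k) hN (by omega) hC rfl rfl hg2 hg1
      (hrow k (by omega)) D hD e.re e.im hab p hpair ?_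
    rw [hΔs] at hbig
    push_cast at hbig ⊢
    linarith
  · rw [abs_of_neg hneg] at hbig
    refine tube_aux N C k (k ^ (C * k)) (2 ^ k) hN (by omega) hC rfl rfl hg2 hg1
      (hrow k (by omega)) D hD e.re e.im hab p.reverse (by
        intro x hx y hy'
        rw [SimpleGraph.Walk.support_reverse, List.mem_reverse] at hx hy'
        exact hpair x hx y hy') ?_
    rw [hΔs] at hbig
    push_cast at hbig ⊢
    linarith

theorem part_disc (N : ℕ) (C k0 : ℕ)
    (hrow : ∀ k ≥ k0, RowProp N C k) (c : ℝ) (hc : 0 < c) (hcC : c * (C + 1) ≤ 1) :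
    ∃ R₀ : ℝ, 1 ≤ R₀ ∧ ∀ R ≥ R₀, ∀ D : ℝ, D ≤ N → ∀ a : ℂ,
      ({z : {z : GaussianInt // Irreducible z} | ‖(z.1 : ℂ) - a‖ ≤ R ∧
        (((moatGraph D).connectedComponentMk z).supp.Infinite ∨
          c * Real.log R / Real.log (Real.log R) ≤
            (((moatGraph D).connectedComponentMk z).supp.ncard : ℝ))}.ncard : ℝ) ≤
      R ^ (2 - c / Real.log (Real.log R)) := by
  have hC0 : (0 : ℝ) ≤ C := by positivity
  obtain ⟨R₀, hR₀1, hR₀⟩ := param_k c hc (by nlinarith) (C + 1)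
    (by push_cast; linarith) (k0 + 9)
  refine ⟨R₀, hR₀1, fun R hR D hD a ↦ ?_⟩
  obtain ⟨hlog, k, hk1, hk2, hk3, hk4⟩ := hR₀ R hR
  have hRpos : 0 < R := by linarith
  have hlogpos : 0 < Real.log R := (Real.exp_pos 1).trans_le hlog
  have hll : 1 ≤ Real.log (Real.log R) := by
    rw [Real.le_log_iff_exp_le hlogpos]; exact hlog
  set A : Set {z : GaussianInt // Irreducible z} := {z | ‖(z.1 : ℂ) - a‖ ≤ R ∧
        (((moatGraph D).connectedComponentMk z).supp.Infinite ∨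
          c * Real.log R / Real.log (Real.log R) ≤
            (((moatGraph D).connectedComponentMk z).supp.ncard : ℝ))} with hA
  have hAfin : A.Finite := (finite_disc a R).subset (fun z hz ↦ hz.1)
  rw [Set.ncard_eq_toFinset_card A hAfin]
  have hb := disc_bound_aux N C k (by omega) (hrow k (by omega)) D hD a R (by
    exact_mod_cast hk4) hAfin.toFinset (by
      intro z hz
      rw [Set.Finite.mem_toFinset, hA] at hz
      refine ⟨hz.1, ?_⟩
      rcases hz.2 with h | h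
      · rw [h.encard_eq]; exact le_top
      · have h1 : (k : ℝ) ≤ (((moatGraph D).connectedComponentMk z).supp.ncard : ℝ) := hk2.trans h
        have h2 : k ≤ ((moatGraph D).connectedComponentMk z).supp.ncard := by exact_mod_cast h1
        exact le_trans (by exact_mod_cast h2) (Set.ncard_le_encard _))
  refine hb.trans ?_
  obtain ⟨x, hx⟩ : ∃ x : ℝ, x = c * Real.log R / Real.log (Real.log R) := ⟨_, rfl⟩
  have hexp : R ^ (2 - c / Real.log (Real.log R)) = R ^ 2 * Real.exp (-x) := by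
    rw [Real.rpow_sub hRpos, Real.rpow_def_of_pos hRpos (c / Real.log (Real.log R)),
      Real.exp_neg, hx]
    have : Real.log R * (c / Real.log (Real.log R)) = c * Real.log R / Real.log (Real.log R) := by
      ring
    rw [this, div_eq_mul_inv]
    norm_num
  rw [hexp]
  rw [← hx] at hk3
  have hk9 : (9 : ℝ) ≤ k := by
    have : 9 ≤ k := by omega
    exact_mod_cast this
  have h1 : 10 * Real.exp (-(2 * (k : ℝ))) ≤ Real.exp (-x) := by
    have h2 : (10 : ℝ) ≤ Real.exp (k - 1) := by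
      have h3 : Real.exp 8 ≤ Real.exp (k - 1) := Real.exp_le_exp.2 (by linarith)
      have h4 : (9 : ℝ) ≤ Real.exp 8 := by
        have := Real.add_one_le_exp (8 : ℝ)
        linarith
      have h5 : Real.exp 8 = (Real.exp 1) ^ 8 := by rw [← Real.exp_nat_mul]; norm_num
      have h6 : (2 : ℝ) ≤ Real.exp 1 := by linarith [Real.exp_one_gt_d9]
      have h7 : (2 : ℝ) ^ 8 ≤ (Real.exp 1) ^ 8 := by gcongr
      norm_num at h7
      linarith
    calc 10 * Real.exp (-(2 * (k : ℝ))) ≤ Real.exp (k - 1) * Real.exp (-(2 * (k : ℝ))) := by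
          gcongr
      _ = Real.exp (-(k + 1)) := by rw [← Real.exp_add]; ring_nf
      _ ≤ Real.exp (-x) := Real.exp_le_exp.2 (by linarith)
  calc 10 * R ^ 2 * Real.exp (-(2 * (k : ℝ))) = R ^ 2 * (10 * Real.exp (-(2 * (k : ℝ)))) := by ring
    _ ≤ R ^ 2 * Real.exp (-x) := by gcongr

end Vale.Agent.P015
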