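import Mathlib.Tactic
import Mathlib.Analysis.SpecialFunctions.Log.Monotone
import Vale.Agent.P015.Main

namespace Vale.Agent.P015

open Finset Classical ComplexConjugate Filter

lemma walk_of_seq {D : ℝ} (f : ℕ → {z : GaussianInt // Irreducible z})
    (hf : ∀ n, (moatGraph D).Adj (f n) (f (n + 1))) (n0 : ℕ) :
    ∀ m : ℕ, ∃ p : (moatGraph D).Walk (f n0) (f (n0 + m)),
      ∀ x ∈ p.support, ∃ j ≤ m, x = f (n0 + j) := by
  intro m
  induction m with
  | zero =>
    refine ⟨SimpleGraph.Walk.nil, ?_⟩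
    intro x hx
    simp at hx
    exact ⟨0, le_rfl, hx⟩
  | succ m ih =>
    obtain ⟨p, hp⟩ := ih
    refine ⟨p.concat (hf (n0 + m)), ?_⟩
    intro x hx
    rw [SimpleGraph.Walk.support_concat] at hx
    simp only [List.mem_append, List.mem_singleton] at hx
    rcases hx with hx | hx
    · obtain ⟨j, hj, rfl⟩ := hp x hx
      exact ⟨j, by omega, rfl⟩
    · exact ⟨m + 1, le_rfl, hx⟩

lemma eventually_norm_gt (f : ℕ → {z : GaussianInt // Irreducible z})
    (hinj : Function.Injective f) (B : ℝ) : ∀ᶠ n in atTop, B < ‖((f n).1 : ℂ)‖ := by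
  have h1 : {n : ℕ | ‖((f n).1 : ℂ)‖ ≤ B}.Finite := by
    have h2 := (finite_norm_le B).preimage (f := fun n ↦ (f n).1)
      ((Subtype.val_injective.comp hinj).injOn)
    exact h2
  rw [← Nat.cofinite_eq_atTop]
  filter_upwards [h1.compl_mem_cofinite] with n hn
  rw [Set.mem_compl_iff, Set.mem_ofPred_eq] at hn
  exact not_le.1 hn

lemma mono_aux (x y : ℝ) (hx : Real.exp 1 ≤ x) (hxy : x ≤ y) :
    x / Real.log x ≤ y / Real.log y := by
  have h1 : Real.log y / y ≤ Real.log x / x :=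
    Real.log_div_self_antitoneOn (show x ∈ Set.Ici (Real.exp 1) from hx)
    (show y ∈ Set.Ici (Real.exp 1) from hx.trans hxy) hxy
  have hx0 : 0 < x := (Real.exp_pos 1).trans_le hx
  have hy0 : 0 < y := hx0.trans_le hxy
  have hlx : 0 < Real.log x := by
    have : 1 ≤ Real.log x := by rw [Real.le_log_iff_exp_le hx0]; exact hx
    linarith
  have hly : 0 < Real.log y := by
    have : 1 ≤ Real.log y := by rw [Real.le_log_iff_exp_le hy0]; exact hx.trans hxy
    linarith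
  rw [div_le_div_iff₀ hy0 hx0] at h1
  rw [div_le_div_iff₀ hlx hly]
  linarith

theorem part_path (N : ℕ) (c : ℝ) (hc : 0 < c) (D : ℝ) (hD : D ≤ N)
    (htube : ∃ L₀ : ℝ, 1 ≤ L₀ ∧ ∀ L ≥ L₀, ∀ q e : ℂ, ‖e‖ = 1 →
      ∀ z w : {z : GaussianInt // Irreducible z}, ∀ p : (moatGraph D).Walk z w,
      (∀ x ∈ p.support, |(((x.1 : ℂ) - q) * conj e).im| ≤
        L ^ ((2 * c) / Real.log (Real.log L))) → ‖(z.1 : ℂ) - w.1‖ < L)
    (f : ℕ → {z : GaussianInt // Irreducible z}) (hinj : Function.Injective f)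
    (hf : ∀ n, (moatGraph D).Adj (f n) (f (n + 1))) (q e : ℂ) (he : ‖e‖ = 1) :
    ∃ᶠ n in atTop, ‖((f n).1 : ℂ)‖ ^ (c / Real.log (Real.log ‖((f n).1 : ℂ)‖)) <
      |((((f n).1 : ℂ) - q) * conj e).im| := by
  by_contra hcon
  rw [not_frequently] at hcon
  obtain ⟨n0, hn0⟩ := eventually_atTop.1
    (hcon.and (eventually_norm_gt f hinj (Real.exp (Real.exp 1))))
  obtain ⟨L₀, hL₀1, hL₀⟩ := htube
  obtain ⟨L, hL⟩ : ∃ L : ℝ, L = L₀ + ‖((f n0).1 : ℂ)‖ + N + Real.exp (Real.exp 1) + 2 := ⟨_, rfl⟩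
  have hA0 : 0 ≤ ‖((f n0).1 : ℂ)‖ := norm_nonneg _
  have hN0 : (0 : ℝ) ≤ N := by positivity
  have hee : 0 < Real.exp (Real.exp 1) := Real.exp_pos _
  have hLL₀ : L ≥ L₀ := by rw [hL]; linarith
  have hL2 : 2 ≤ L := by rw [hL]; linarith
  have hLe : Real.exp (Real.exp 1) ≤ L := by rw [hL]; linarith
  have hex : ∃ m : ℕ, L ≤ ‖((f (n0 + m)).1 : ℂ) - (f n0).1‖ := by
    obtain ⟨n1, hn1⟩ := eventually_atTop.1
      (eventually_norm_gt f hinj (L + ‖((f n0).1 : ℂ)‖))
    refine ⟨n1, ?_⟩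
    have h1 := hn1 (n0 + n1) (by omega)
    have h2 : ‖((f (n0 + n1)).1 : ℂ)‖ ≤ ‖((f (n0 + n1)).1 : ℂ) - (f n0).1‖ +
        ‖((f n0).1 : ℂ)‖ := by
      calc ‖((f (n0 + n1)).1 : ℂ)‖ = ‖(((f (n0 + n1)).1 : ℂ) - (f n0).1) + ((f n0).1 : ℂ)‖ := by
            congr 1; ring
        _ ≤ _ := norm_add_le _ _
    linarith
  have hm := Nat.find_spec hex
  have hmin : ∀ j < Nat.find hex, ‖((f (n0 + j)).1 : ℂ) - (f n0).1‖ < L :=
    fun j hj ↦ not_le.1 (Nat.find_min hex hj)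
  obtain ⟨m, hmdef⟩ : ∃ m : ℕ, m = Nat.find hex := ⟨_, rfl⟩
  rw [← hmdef] at hm hmin
  have hm1 : 1 ≤ m := by
    rcases Nat.eq_zero_or_pos m with h | h
    · rw [h] at hm
      simp at hm
      linarith
    · exact h
  have hall : ∀ j ≤ m, ‖((f (n0 + j)).1 : ℂ)‖ ≤ 2 * L := by
    intro j hj
    have h1 : ‖((f (n0 + j)).1 : ℂ) - (f n0).1‖ ≤ L + N := by
      rcases Nat.lt_or_ge j m with h | h
      · have := hmin j h
        linarith
      · have hjm : j = m := le_antisymm hj h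
        subst hjm
        have h2 := hmin (j - 1) (by omega)
        have h3 := (hf (n0 + (j - 1))).2
        have h4 : n0 + (j - 1) + 1 = n0 + j := by omega
        rw [h4] at h3
        have h5 : ‖((f (n0 + j)).1 : ℂ) - (f n0).1‖ ≤
            ‖((f (n0 + (j - 1))).1 : ℂ) - (f (n0 + j)).1‖ +
            ‖((f (n0 + (j - 1))).1 : ℂ) - (f n0).1‖ := by
          rw [norm_sub_rev ((f (n0 + (j - 1))).1 : ℂ) ((f (n0 + j)).1 : ℂ)]
          calc ‖((f (n0 + j)).1 : ℂ) - (f n0).1‖ =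
              ‖(((f (n0 + j)).1 : ℂ) - (f (n0 + (j - 1))).1) +
                (((f (n0 + (j - 1))).1 : ℂ) - (f n0).1)‖ := by congr 1; ring
            _ ≤ _ := norm_add_le _ _
        linarith
    have h6 : ‖((f (n0 + j)).1 : ℂ)‖ ≤ ‖((f (n0 + j)).1 : ℂ) - (f n0).1‖ +
        ‖((f n0).1 : ℂ)‖ := by
      calc ‖((f (n0 + j)).1 : ℂ)‖ = ‖(((f (n0 + j)).1 : ℂ) - (f n0).1) + ((f n0).1 : ℂ)‖ := by
            congr 1; ring
        _ ≤ _ := norm_add_le _ _
    linarith
  obtain ⟨p, hp⟩ := walk_of_seq f hf n0 m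
  have hfin := hL₀ L hLL₀ q e he (f n0) (f (n0 + m)) p (by
    intro x hx
    obtain ⟨j, hj, rfl⟩ := hp x hx
    obtain ⟨h1, h2⟩ := hn0 (n0 + j) (by omega)
    refine (not_lt.1 h1).trans ?_
    have h3 := hall j hj
    obtain ⟨r, hr⟩ : ∃ r : ℝ, r = ‖((f (n0 + j)).1 : ℂ)‖ := ⟨_, rfl⟩
    rw [← hr] at h2 h3 ⊢
    have hr0 : 0 < r := hee.trans h2
    have hL0 : 0 < L := by linarith
    have hlr : Real.exp 1 ≤ Real.log r := by
      rw [Real.le_log_iff_exp_le hr0]; exact h2.le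
    have hlL : Real.exp 1 ≤ Real.log L := by
      rw [Real.le_log_iff_exp_le hL0]; exact hLe
    have hlr2 : Real.log r ≤ Real.log (2 * L) := Real.log_le_log hr0 h3
    have hmono := mono_aux (Real.log r) (Real.log (2 * L)) hlr hlr2
    have hl2L : Real.log (2 * L) ≤ 2 * Real.log L := by
      rw [Real.log_mul (by norm_num) hL0.ne']
      have : Real.log 2 ≤ Real.log L := Real.log_le_log (by norm_num) hL2
      linarith
    have hlLpos : 0 < Real.log L := (Real.exp_pos 1).trans_le hlL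
    have hllL : 1 ≤ Real.log (Real.log L) := by
      rw [Real.le_log_iff_exp_le hlLpos]; exact hlL
    have hll2 : Real.log (Real.log L) ≤ Real.log (Real.log (2 * L)) := by
      refine Real.log_le_log hlLpos (Real.log_le_log hL0 (by linarith))
    have hfrac : Real.log (2 * L) / Real.log (Real.log (2 * L)) ≤
        2 * Real.log L / Real.log (Real.log L) := by
      have h5 : 0 < Real.log (Real.log L) := by linarith
      gcongr
    rw [Real.rpow_def_of_pos hr0, Real.rpow_def_of_pos hL0]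
    refine Real.exp_le_exp.2 ?_
    calc Real.log r * (c / Real.log (Real.log r)) = c * (Real.log r / Real.log (Real.log r)) := by
          ring
      _ ≤ c * (2 * Real.log L / Real.log (Real.log L)) :=
          mul_le_mul_of_nonneg_left (hmono.trans hfrac) hc.le
      _ = Real.log L * (2 * c / Real.log (Real.log L)) := by ring)
  rw [norm_sub_rev] at hfin
  linarith

end Vale.Agent.P015
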